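import Mathlib.Algebra.Group.Subgroup.Defs

/-! Definition used in the statement. -/

namespace Vale.Agent.P329.H697

/-- The group `G` has a subgroup `N` which contains all squares, such that the commutators of the
elements of `N` commute with all elements of `G`. -/
def CentralSquares (G : Type) [Group G] : Prop :=
  ∃ N : Subgroup G, (∀ g : G, g * g ∈ N) ∧ ∀ x ∈ N, ∀ y ∈ N, ∀ g : G,
    g * (x * y * x⁻¹ * y⁻¹) = x * y * x⁻¹ * y⁻¹ * g

end Vale.Agent.P329.H697
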