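import Vale.Agent.P329.H697.Core
import Mathlib.Algebra.Group.MinimalAxioms

/-! Products in groups of class two with commutators of order three, twisted by an involution. -/

namespace Vale.Agent.P329.H697

open Vale.Agent.P329 Vale.Agent.P329.S4

section baer

variable {K : Type} [Group K]

/-- central elements of order dividing three -/
def E3 (K : Type) [Group K] : Subgroup K where
  carrier := {h | (∀ g, g * h = h * g) ∧ h ^ 3 = 1}
  mul_mem' := by
    rintro a b ⟨ha, ha3⟩ ⟨hb, hb3⟩
    refine ⟨fun g => by rw [← mul_assoc, ha, mul_assoc, hb, mul_assoc], ?_⟩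
    rw [(show Commute a b from hb a).mul_pow, ha3, hb3, one_mul]
  one_mem' := ⟨fun g => by rw [mul_one, one_mul], one_pow 3⟩
  inv_mem' := by
    rintro a ⟨ha, ha3⟩
    exact ⟨fun g => (show Commute g a from ha g).inv_right, by rw [inv_pow, ha3, inv_one]⟩

instance e3comm : CommGroup (E3 K) :=
  { (inferInstance : Group (E3 K)) with mul_comm := fun a b => Subtype.ext (b.2.1 a) }

instance e3mod : Module (ZMod 3) (Additive (E3 K)) :=
  AddCommGroup.zmodModule (n := 3) (fun x => by
    apply Additive.toMul.injective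
    rw [toMul_nsmul, toMul_zero]
    exact Subtype.ext (Additive.toMul x).2.2)

/-- underlying element -/
def vE (e : Additive (E3 K)) : K := ((Additive.toMul e : E3 K) : K)

theorem vE_add (a b : Additive (E3 K)) : vE (a + b) = vE a * vE b := rfl
theorem vE_zero : vE (0 : Additive (E3 K)) = 1 := rfl
theorem vE_cen (e : Additive (E3 K)) (g : K) : g * vE e = vE e * g := (Additive.toMul e).2.1 g
theorem vE_cub (e : Additive (E3 K)) : vE e ^ 3 = 1 := (Additive.toMul e).2.2
theorem vE_inj {a b : Additive (E3 K)} (h : vE a = vE b) : a = b :=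
  Additive.toMul.injective (Subtype.ext h)

variable (hK : ∀ x y : K, x * y * x⁻¹ * y⁻¹ ∈ E3 K)

/-- the commutator -/
def cc (x y : K) : Additive (E3 K) := Additive.ofMul ⟨x * y * x⁻¹ * y⁻¹, hK x y⟩

theorem vE_cc (x y : K) : vE (cc hK x y) = x * y * x⁻¹ * y⁻¹ := rfl

theorem cc_one_left (y : K) : cc hK 1 y = 0 := by
  apply vE_inj
  rw [vE_cc, vE_zero]; group

theorem cc_mul_left (x y z : K) : cc hK (x * y) z = cc hK x z + cc hK y z := by
  apply vE_inj
  have h : vE (cc hK (x * y) z) = x * vE (cc hK y z) * (z * x⁻¹ * z⁻¹) := by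
    rw [vE_cc, vE_cc]; group
  have h2 := (vE_cen (cc hK y z) (x * (z * x⁻¹ * z⁻¹))).symm
  rw [vE_add, h, vE_cen (cc hK y z) x, mul_assoc, h2]
  congr 1
  rw [vE_cc]; group

theorem cc_swap (x y : K) : cc hK y x = -cc hK x y := by
  rw [eq_neg_iff_add_eq_zero]
  apply vE_inj
  rw [vE_add, vE_zero, vE_cc, vE_cc]; group

theorem cc_mul_right (x y z : K) : cc hK x (y * z) = cc hK x y + cc hK x z := by
  rw [cc_swap hK (y * z) x, cc_mul_left, neg_add, ← cc_swap, ← cc_swap]

theorem cc_vE (e : Additive (E3 K)) (y : K) : cc hK (vE e) y = 0 := by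
  apply vE_inj
  rw [vE_cc, vE_zero, ← vE_cen e y]; group

theorem comm_eq (x y : K) : x * y = vE (cc hK x y) * (y * x) := by
  rw [vE_cc]; group

theorem vE_neg (e : Additive (E3 K)) : vE (-e) = (vE e)⁻¹ := rfl

/-- the commutative group attached to `K` -/
structure Ba (hK : ∀ x y : K, x * y * x⁻¹ * y⁻¹ ∈ E3 K) where
  /-- underlying element -/
  val : K

variable {hK}

@[ext] theorem Ba.ext' {a b : Ba hK} (h : a.val = b.val) : a = b := by
  cases a; cases b; cases h; rfl

instance [Finite K] : Finite (Ba hK) :=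
  Finite.of_injective (fun a => a.val) fun _ _ h => Ba.ext' h

instance : Mul (Ba hK) := ⟨fun a b => ⟨a.val * b.val * vE (cc hK a.val b.val)⟩⟩
instance : One (Ba hK) := ⟨⟨1⟩⟩
instance : Inv (Ba hK) := ⟨fun a => ⟨a.val⁻¹⟩⟩

theorem ba_mul (a b : Ba hK) : (a * b).val = a.val * b.val * vE (cc hK a.val b.val) := rfl
theorem ba_one : (1 : Ba hK).val = 1 := rfl

instance baGroup : Group (Ba hK) := by
  refine Group.ofLeftAxioms ?_ ?_ ?_
  · intro a b c
    apply Ba.ext'
    rw [ba_mul, ba_mul, ba_mul, ba_mul, cc_mul_left, cc_mul_left, cc_vE, cc_mul_right,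
      cc_mul_right, cc_swap hK (vE _) _, cc_vE, neg_zero, add_zero, add_zero]
    rw [mul_assoc (a.val * b.val), ← vE_cen _ c.val]
    simp only [mul_assoc, ← vE_add]
    congr 4
    abel
  · intro a
    apply Ba.ext'
    rw [ba_mul, ba_one, cc_one_left, vE_zero, mul_one, one_mul]
  · intro a
    apply Ba.ext'
    rw [ba_mul, ba_one]
    have h : cc hK (a⁻¹).val a.val = 0 := by
      apply vE_inj
      rw [vE_cc, vE_zero]
      show a.val⁻¹ * a.val * (a.val⁻¹)⁻¹ * a.val⁻¹ = 1
      group
    rw [h, vE_zero, mul_one]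
    exact inv_mul_cancel a.val

instance baComm : CommGroup (Ba hK) :=
  { baGroup with
    mul_comm := fun a b => by
      apply Ba.ext'
      rw [ba_mul, ba_mul, comm_eq hK a.val b.val, cc_swap hK a.val b.val, mul_assoc,
        ← vE_cen, mul_assoc, ← vE_add]
      congr 2
      rw [eq_neg_iff_add_eq_zero]
      have h3 : ∀ e : Additive (E3 K), e + e + e = 0 := by
        intro e
        apply vE_inj
        rw [vE_add, vE_add, vE_zero, ← vE_cub e]
        rw [pow_succ, pow_two]
      exact h3 _ }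

end baer

end Vale.Agent.P329.H697
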