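import Vale.Agent.P329.S4.Base

/-! Automata without cycles from a closed table of maps. -/

namespace Vale.Agent.P329.H697

open Vale.Agent.P329

/-- composition of tables; `7` stands for undefined -/
def cmp (m g : List ℕ) : List ℕ := m.map fun j => g.getD j 7

/-- the table is closed and aperiodic -/
def okT (gens L : List (List ℕ)) : Bool :=
  (gens.all fun g => L.contains g && g.getD 7 7 == 7) &&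
  (L.all fun m => m.getD 7 7 == 7 && (gens.all fun g => L.contains (cmp m g)) &&
    cmp (cmp (cmp (cmp m m) (cmp m m)) (cmp (cmp m m) (cmp m m))) m ==
      cmp (cmp (cmp m m) (cmp m m)) (cmp (cmp m m) (cmp m m)))

theorem cmp_getD {g : List ℕ} (hg : g.getD 7 7 = 7) (m : List ℕ) (j : ℕ) :
    (cmp m g).getD j 7 = g.getD (m.getD j 7) 7 := by
  unfold cmp
  rw [List.getD_eq_getElem?_getD, List.getElem?_map, List.getD_eq_getElem?_getD (l := m)]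
  rcases m[j]? with _ | k
  · exact hg.symm
  · rfl

/-- value of an optional state -/
def ev {σ : Type} (e : σ → ℕ) (o : Option σ) : ℕ := o.elim 7 e

theorem noCyc_table {σ α : Type} {δ : σ → α → Option σ} (e : σ → ℕ)
    (he : Function.Injective e) (he7 : ∀ s, e s < 7) (code : α → List ℕ)
    (gens L : List (List ℕ)) (hok : okT gens L = true) (hc : ∀ x, code x ∈ gens)
    (h : ∀ s x, ev e (δ s x) = (code x).getD (e s) 7) : NoCyc δ := by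
  simp only [okT, Bool.and_eq_true, List.all_eq_true, List.contains_iff_mem, beq_iff_eq] at hok
  obtain ⟨hg, hL⟩ := hok
  have key : ∀ z : List α, z ≠ [] → ∃ m ∈ L, ∀ s, m.getD (e s) 7 = ev e (run δ s z) := by
    intro z
    induction z using List.reverseRecOn with
    | nil => intro h0; exact absurd rfl h0
    | append_singleton z x ih =>
      intro _
      by_cases hz : z = []
      · subst hz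
        refine ⟨code x, (hg _ (hc x)).1, fun s => ?_⟩
        rw [← h s x, List.nil_append]
        rcases hs : δ s x with _ | t
        · rw [run_cons_none _ hs]
        · rw [run_cons_some _ hs]; rfl
      · obtain ⟨m, hm, h1⟩ := ih hz
        refine ⟨cmp m (code x), ((hL m hm).1.2 _ (hc x)), fun s => ?_⟩
        rw [cmp_getD (hg _ (hc x)).2, h1 s]
        rcases hs : run δ s z with _ | t
        · have h2 : run δ s (z ++ [x]) = none := by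
            rcases h3 : run δ s (z ++ [x]) with _ | t
            · rfl
            · obtain ⟨s', h4, -⟩ := run_append_eq_some h3
              rw [hs] at h4; cases h4
          rw [h2]
          exact (hg _ (hc x)).2
        · rw [run_append _ hs]
          show (code x).getD (e t) 7 = _
          rw [← h t x]
          rcases ht : δ t x with _ | t'
          · rw [run_cons_none _ ht]
          · rw [run_cons_some _ ht]; rfl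
  apply noCyc_of
  intro z s n hz hn hs
  obtain ⟨m, hm, h1⟩ := key z hz
  obtain ⟨⟨h7, -⟩, h8⟩ := hL m hm
  set f : ℕ → ℕ := fun j => m.getD j 7 with hf
  have hf7 : f 7 = 7 := h7
  have hev : ∀ o : Option σ, f (ev e o) = ev e (o.elim none fun t => run δ t z) := by
    intro o
    rcases o with _ | t
    · exact hf7
    · exact h1 t
  have hit : ∀ k : ℕ, f^[k] (e s) = ev e (run δ s (pw k z)) := by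
    intro k
    induction k with
    | zero => rfl
    | succ k ih =>
      rw [Function.iterate_succ_apply', ih, hev, pw_succ']
      rcases hk : run δ s (pw k z) with _ | t
      · have h2 : run δ s (pw k z ++ z) = none := by
          rcases h3 : run δ s (pw k z ++ z) with _ | t
          · rfl
          · obtain ⟨s', h4, -⟩ := run_append_eq_some h3
            rw [hk] at h4; cases h4
        rw [h2]; rfl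
      · rw [run_append _ hk]; rfl
  have g1 : (cmp m m).getD 7 7 = 7 := by rw [cmp_getD h7, h7]; exact h7
  have g2 : (cmp (cmp m m) (cmp m m)).getD 7 7 = 7 := by rw [cmp_getD g1, g1]; exact g1
  have h9 : ∀ j : ℕ, f^[9] j = f^[8] j := by
    intro j
    have h10 := congrArg (fun l : List ℕ => l.getD j 7) h8
    simp only [cmp_getD h7, cmp_getD g1, cmp_getD g2] at h10
    exact h10
  have hfix : f^[n] (e s) = e s := by rw [hit, hs]; rfl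
  have hfix2 : ∀ k, f^[n * k] (e s) = e s := by
    intro k
    induction k with
    | zero => rfl
    | succ k ih => rw [Nat.mul_succ, Nat.add_comm, Function.iterate_add_apply, ih, hfix]
  have h11 : f (e s) = e s := by
    have h12 : n * 8 = 8 + (n * 8 - 8) := by omega
    have h13 := hfix2 8
    rw [h12, Function.iterate_add_apply] at h13
    have h14 := h9 (f^[n * 8 - 8] (e s))
    rw [Function.iterate_succ_apply', h13] at h14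
    exact h14
  have h15 : ev e (run δ s z) = e s := by rw [← h1 s]; exact h11
  rcases hz2 : run δ s z with _ | t
  · rw [hz2] at h15
    exact absurd h15 (he7 s).ne'
  · rw [hz2] at h15
    rw [he h15]

/-- generators for the ladder moving at the negative class -/
def g3 : List (List ℕ) :=
  [[3, 4, 5, 2, 7, 1, 7, 7], [3, 4, 5, 1, 2, 7, 7, 7], [7, 1, 2, 3, 4, 5, 7, 7],
    [0, 1, 2, 3, 4, 5, 7, 7]]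

/-- generators for the ladder moving at the positive class -/
def g4 : List (List ℕ) :=
  [[5, 3, 4, 7, 1, 2, 7, 7], [4, 5, 3, 7, 1, 2, 7, 7], [7, 1, 2, 3, 4, 5, 7, 7],
    [0, 1, 2, 3, 4, 5, 7, 7]]

/-- generators, two reflections -/
def g1 : List (List ℕ) :=
  [[7, 1, 0, 3, 7, 7, 7, 7], [0, 7, 1, 7, 7, 7, 7, 7], [0, 2, 3, 7, 7, 7, 7, 7],
    [0, 1, 2, 3, 7, 7, 7, 7]]

/-- generators, two reflections -/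
def g2 : List (List ℕ) :=
  [[7, 1, 0, 3, 7, 7, 7, 7], [0, 7, 1, 2, 7, 7, 7, 7], [0, 7, 3, 7, 7, 7, 7, 7],
    [0, 1, 2, 3, 7, 7, 7, 7]]

/-- closed table -/
def t3 : List (List ℕ) :=
  [
    [0, 1, 2, 3, 4, 5, 7, 7], [1, 2, 7, 4, 5, 7, 7, 7], [1, 2, 7, 5, 7, 4, 7, 7], [1, 7, 7, 4,
    7, 7, 7, 7], [1, 7, 7, 5, 7, 7, 7, 7], [1, 7, 7, 7, 4, 7, 7, 7], [1, 7, 7, 7, 5, 7, 7, 7],
    [1, 7, 7, 7, 7, 4, 7, 7], [1, 7, 7, 7, 7, 5, 7, 7], [1, 7, 7, 7, 7, 7, 7, 7], [2, 7, 1, 4,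
    5, 7, 7, 7], [2, 7, 1, 5, 7, 4, 7, 7], [2, 7, 7, 4, 7, 7, 7, 7], [2, 7, 7, 5, 7, 7, 7, 7],
    [2, 7, 7, 7, 4, 7, 7, 7], [2, 7, 7, 7, 5, 7, 7, 7], [2, 7, 7, 7, 7, 4, 7, 7], [2, 7, 7, 7,
    7, 5, 7, 7], [2, 7, 7, 7, 7, 7, 7, 7], [3, 4, 5, 1, 2, 7, 7, 7], [3, 4, 5, 2, 7, 1, 7, 7],
    [4, 5, 7, 1, 7, 7, 7, 7], [4, 5, 7, 2, 7, 7, 7, 7], [4, 5, 7, 7, 1, 7, 7, 7], [4, 5, 7, 7,
    7, 2, 7, 7], [4, 7, 7, 1, 7, 7, 7, 7], [4, 7, 7, 2, 7, 7, 7, 7], [4, 7, 7, 7, 1, 7, 7, 7],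
    [4, 7, 7, 7, 2, 7, 7, 7], [4, 7, 7, 7, 7, 1, 7, 7], [4, 7, 7, 7, 7, 2, 7, 7], [4, 7, 7, 7,
    7, 7, 7, 7], [5, 7, 4, 1, 7, 7, 7, 7], [5, 7, 4, 2, 7, 7, 7, 7], [5, 7, 4, 7, 1, 7, 7, 7],
    [5, 7, 4, 7, 7, 2, 7, 7], [5, 7, 7, 1, 7, 7, 7, 7], [5, 7, 7, 2, 7, 7, 7, 7], [5, 7, 7, 7,
    1, 7, 7, 7], [5, 7, 7, 7, 2, 7, 7, 7], [5, 7, 7, 7, 7, 1, 7, 7], [5, 7, 7, 7, 7, 2, 7, 7],
    [5, 7, 7, 7, 7, 7, 7, 7], [7, 1, 2, 3, 4, 5, 7, 7], [7, 1, 7, 4, 7, 7, 7, 7], [7, 1, 7, 5,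
    7, 7, 7, 7], [7, 1, 7, 7, 4, 7, 7, 7], [7, 1, 7, 7, 7, 5, 7, 7], [7, 1, 7, 7, 7, 7, 7, 7],
    [7, 2, 7, 4, 5, 7, 7, 7], [7, 2, 7, 4, 7, 7, 7, 7], [7, 2, 7, 5, 7, 4, 7, 7], [7, 2, 7, 5,
    7, 7, 7, 7], [7, 2, 7, 7, 5, 7, 7, 7], [7, 2, 7, 7, 7, 4, 7, 7], [7, 2, 7, 7, 7, 7, 7, 7],
    [7, 4, 5, 1, 2, 7, 7, 7], [7, 4, 5, 2, 7, 1, 7, 7], [7, 4, 7, 1, 7, 7, 7, 7], [7, 4, 7, 2,
    7, 7, 7, 7], [7, 4, 7, 7, 2, 7, 7, 7], [7, 4, 7, 7, 7, 1, 7, 7], [7, 4, 7, 7, 7, 7, 7, 7],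
    [7, 5, 7, 1, 7, 7, 7, 7], [7, 5, 7, 2, 7, 7, 7, 7], [7, 5, 7, 7, 1, 7, 7, 7], [7, 5, 7, 7,
    7, 2, 7, 7], [7, 5, 7, 7, 7, 7, 7, 7], [7, 7, 1, 4, 5, 7, 7, 7], [7, 7, 1, 4, 7, 7, 7, 7],
    [7, 7, 1, 5, 7, 4, 7, 7], [7, 7, 1, 5, 7, 7, 7, 7], [7, 7, 1, 7, 5, 7, 7, 7], [7, 7, 1, 7,
    7, 4, 7, 7], [7, 7, 1, 7, 7, 7, 7, 7], [7, 7, 2, 4, 7, 7, 7, 7], [7, 7, 2, 5, 7, 7, 7, 7],
    [7, 7, 2, 7, 4, 7, 7, 7], [7, 7, 2, 7, 7, 5, 7, 7], [7, 7, 2, 7, 7, 7, 7, 7], [7, 7, 4, 1,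
    7, 7, 7, 7], [7, 7, 4, 2, 7, 7, 7, 7], [7, 7, 4, 7, 1, 7, 7, 7], [7, 7, 4, 7, 7, 2, 7, 7],
    [7, 7, 4, 7, 7, 7, 7, 7], [7, 7, 5, 1, 7, 7, 7, 7], [7, 7, 5, 2, 7, 7, 7, 7], [7, 7, 5, 7,
    2, 7, 7, 7], [7, 7, 5, 7, 7, 1, 7, 7], [7, 7, 5, 7, 7, 7, 7, 7], [7, 7, 7, 1, 7, 7, 7, 7],
    [7, 7, 7, 2, 7, 7, 7, 7], [7, 7, 7, 4, 7, 7, 7, 7], [7, 7, 7, 5, 7, 7, 7, 7], [7, 7, 7, 7,
    1, 7, 7, 7], [7, 7, 7, 7, 2, 7, 7, 7], [7, 7, 7, 7, 4, 7, 7, 7], [7, 7, 7, 7, 5, 7, 7, 7],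
    [7, 7, 7, 7, 7, 1, 7, 7], [7, 7, 7, 7, 7, 2, 7, 7], [7, 7, 7, 7, 7, 4, 7, 7], [7, 7, 7, 7,
    7, 5, 7, 7], [7, 7, 7, 7, 7, 7, 7, 7]]

/-- closed table -/
def t4 : List (List ℕ) :=
  [
    [0, 1, 2, 3, 4, 5, 7, 7], [1, 2, 7, 7, 3, 4, 7, 7], [1, 2, 7, 7, 5, 3, 7, 7], [1, 7, 7, 7,
    3, 7, 7, 7], [1, 7, 7, 7, 4, 7, 7, 7], [1, 7, 7, 7, 5, 7, 7, 7], [1, 7, 7, 7, 7, 3, 7, 7],
    [1, 7, 7, 7, 7, 4, 7, 7], [1, 7, 7, 7, 7, 5, 7, 7], [1, 7, 7, 7, 7, 7, 7, 7], [2, 7, 1, 7,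
    3, 4, 7, 7], [2, 7, 1, 7, 5, 3, 7, 7], [2, 7, 7, 7, 3, 7, 7, 7], [2, 7, 7, 7, 4, 7, 7, 7],
    [2, 7, 7, 7, 5, 7, 7, 7], [2, 7, 7, 7, 7, 3, 7, 7], [2, 7, 7, 7, 7, 4, 7, 7], [2, 7, 7, 7,
    7, 5, 7, 7], [2, 7, 7, 7, 7, 7, 7, 7], [3, 4, 7, 7, 2, 7, 7, 7], [3, 4, 7, 7, 7, 1, 7, 7],
    [3, 7, 5, 7, 2, 7, 7, 7], [3, 7, 5, 7, 7, 1, 7, 7], [3, 7, 7, 7, 1, 7, 7, 7], [3, 7, 7, 7,
    2, 7, 7, 7], [3, 7, 7, 7, 7, 1, 7, 7], [3, 7, 7, 7, 7, 2, 7, 7], [3, 7, 7, 7, 7, 7, 7, 7],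
    [4, 5, 3, 7, 1, 2, 7, 7], [4, 7, 3, 7, 2, 7, 7, 7], [4, 7, 3, 7, 7, 1, 7, 7], [4, 7, 7, 7,
    1, 7, 7, 7], [4, 7, 7, 7, 2, 7, 7, 7], [4, 7, 7, 7, 7, 1, 7, 7], [4, 7, 7, 7, 7, 2, 7, 7],
    [4, 7, 7, 7, 7, 7, 7, 7], [5, 3, 4, 7, 1, 2, 7, 7], [5, 3, 7, 7, 2, 7, 7, 7], [5, 3, 7, 7,
    7, 1, 7, 7], [5, 7, 7, 7, 1, 7, 7, 7], [5, 7, 7, 7, 2, 7, 7, 7], [5, 7, 7, 7, 7, 1, 7, 7],
    [5, 7, 7, 7, 7, 2, 7, 7], [5, 7, 7, 7, 7, 7, 7, 7], [7, 1, 2, 3, 4, 5, 7, 7], [7, 1, 7, 7,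
    3, 7, 7, 7], [7, 1, 7, 7, 4, 7, 7, 7], [7, 1, 7, 7, 7, 3, 7, 7], [7, 1, 7, 7, 7, 5, 7, 7],
    [7, 1, 7, 7, 7, 7, 7, 7], [7, 2, 7, 7, 3, 4, 7, 7], [7, 2, 7, 7, 3, 7, 7, 7], [7, 2, 7, 7,
    5, 3, 7, 7], [7, 2, 7, 7, 5, 7, 7, 7], [7, 2, 7, 7, 7, 3, 7, 7], [7, 2, 7, 7, 7, 4, 7, 7],
    [7, 2, 7, 7, 7, 7, 7, 7], [7, 3, 4, 7, 1, 2, 7, 7], [7, 3, 7, 7, 1, 7, 7, 7], [7, 3, 7, 7,
    2, 7, 7, 7], [7, 3, 7, 7, 7, 1, 7, 7], [7, 3, 7, 7, 7, 2, 7, 7], [7, 3, 7, 7, 7, 7, 7, 7],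
    [7, 4, 7, 7, 2, 7, 7, 7], [7, 4, 7, 7, 7, 1, 7, 7], [7, 4, 7, 7, 7, 7, 7, 7], [7, 5, 3, 7,
    1, 2, 7, 7], [7, 5, 7, 7, 1, 7, 7, 7], [7, 5, 7, 7, 7, 2, 7, 7], [7, 5, 7, 7, 7, 7, 7, 7],
    [7, 7, 1, 7, 3, 4, 7, 7], [7, 7, 1, 7, 3, 7, 7, 7], [7, 7, 1, 7, 5, 3, 7, 7], [7, 7, 1, 7,
    5, 7, 7, 7], [7, 7, 1, 7, 7, 3, 7, 7], [7, 7, 1, 7, 7, 4, 7, 7], [7, 7, 1, 7, 7, 7, 7, 7],
    [7, 7, 2, 7, 3, 7, 7, 7], [7, 7, 2, 7, 4, 7, 7, 7], [7, 7, 2, 7, 7, 3, 7, 7], [7, 7, 2, 7,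
    7, 5, 7, 7], [7, 7, 2, 7, 7, 7, 7, 7], [7, 7, 3, 7, 1, 7, 7, 7], [7, 7, 3, 7, 2, 7, 7, 7],
    [7, 7, 3, 7, 7, 1, 7, 7], [7, 7, 3, 7, 7, 2, 7, 7], [7, 7, 3, 7, 7, 7, 7, 7], [7, 7, 4, 7,
    1, 7, 7, 7], [7, 7, 4, 7, 7, 2, 7, 7], [7, 7, 4, 7, 7, 7, 7, 7], [7, 7, 5, 7, 2, 7, 7, 7],
    [7, 7, 5, 7, 7, 1, 7, 7], [7, 7, 5, 7, 7, 7, 7, 7], [7, 7, 7, 7, 1, 7, 7, 7], [7, 7, 7, 7,
    2, 7, 7, 7], [7, 7, 7, 7, 3, 7, 7, 7], [7, 7, 7, 7, 4, 7, 7, 7], [7, 7, 7, 7, 5, 7, 7, 7],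
    [7, 7, 7, 7, 7, 1, 7, 7], [7, 7, 7, 7, 7, 2, 7, 7], [7, 7, 7, 7, 7, 3, 7, 7], [7, 7, 7, 7,
    7, 4, 7, 7], [7, 7, 7, 7, 7, 5, 7, 7], [7, 7, 7, 7, 7, 7, 7, 7]]

/-- closed table -/
def t1 : List (List ℕ) :=
  [
    [0, 1, 2, 3, 7, 7, 7, 7], [0, 1, 7, 7, 7, 7, 7, 7], [0, 2, 3, 7, 7, 7, 7, 7], [0, 2, 7, 7,
    7, 7, 7, 7], [0, 3, 7, 7, 7, 7, 7, 7], [0, 7, 1, 7, 7, 7, 7, 7], [0, 7, 2, 7, 7, 7, 7, 7],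
    [0, 7, 3, 7, 7, 7, 7, 7], [0, 7, 7, 7, 7, 7, 7, 7], [7, 0, 3, 7, 7, 7, 7, 7], [7, 0, 7, 7,
    7, 7, 7, 7], [7, 1, 0, 3, 7, 7, 7, 7], [7, 1, 0, 7, 7, 7, 7, 7], [7, 1, 7, 3, 7, 7, 7, 7],
    [7, 1, 7, 7, 7, 7, 7, 7], [7, 2, 0, 7, 7, 7, 7, 7], [7, 2, 7, 7, 7, 7, 7, 7], [7, 3, 0, 7,
    7, 7, 7, 7], [7, 3, 7, 7, 7, 7, 7, 7], [7, 7, 0, 7, 7, 7, 7, 7], [7, 7, 1, 7, 7, 7, 7, 7],
    [7, 7, 2, 7, 7, 7, 7, 7], [7, 7, 3, 7, 7, 7, 7, 7], [7, 7, 7, 7, 7, 7, 7, 7]]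

/-- closed table -/
def t2 : List (List ℕ) :=
  [
    [0, 1, 2, 3, 7, 7, 7, 7], [0, 7, 1, 2, 7, 7, 7, 7], [0, 7, 1, 7, 7, 7, 7, 7], [0, 7, 2, 7,
    7, 7, 7, 7], [0, 7, 3, 7, 7, 7, 7, 7], [0, 7, 7, 1, 7, 7, 7, 7], [0, 7, 7, 2, 7, 7, 7, 7],
    [0, 7, 7, 3, 7, 7, 7, 7], [0, 7, 7, 7, 7, 7, 7, 7], [7, 1, 0, 3, 7, 7, 7, 7], [7, 1, 7, 3,
    7, 7, 7, 7], [7, 7, 0, 1, 7, 7, 7, 7], [7, 7, 0, 2, 7, 7, 7, 7], [7, 7, 0, 3, 7, 7, 7, 7],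
    [7, 7, 0, 7, 7, 7, 7, 7], [7, 7, 1, 0, 7, 7, 7, 7], [7, 7, 1, 7, 7, 7, 7, 7], [7, 7, 2, 7,
    7, 7, 7, 7], [7, 7, 3, 7, 7, 7, 7, 7], [7, 7, 7, 0, 7, 7, 7, 7], [7, 7, 7, 1, 7, 7, 7, 7],
    [7, 7, 7, 2, 7, 7, 7, 7], [7, 7, 7, 3, 7, 7, 7, 7], [7, 7, 7, 7, 7, 7, 7, 7]]

theorem ok3 : okT g3 t3 = true := by decide +kernel
theorem ok4 : okT g4 t4 = true := by decide +kernel
theorem ok1 : okT g1 t1 = true := by decide +kernel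
theorem ok2 : okT g2 t2 = true := by decide +kernel

end Vale.Agent.P329.H697
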