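import Vale.Agent.P329.S4.Base
import Vale.Agent.P329.H697.Tab

/-! Twisted pair counts modulo three. -/

namespace Vale.Agent.P329.H697

open Vale.Agent.P329 Vale.Agent.P329.S4

section general

variable {α : Type}

/-- reduction modulo three -/
def c3 : ℤ →+ ZMod 3 := Int.castAddHom (ZMod 3)

theorem indz {Q : Type} [DecidableEq Q] (r q : Q) :
    ((ind r q : ℤ) : ZMod 3) = if q = r then 1 else 0 := by
  by_cases h : q = r
  · rw [if_pos h, h, ind_self, Int.cast_one]
  · rw [if_neg h, ind_ne h, Int.cast_zero]

theorem lc [Finite α] {b : α} {ι : Type} [Fintype ι] (c : ι → ZMod 3) (G : ι → List α → ℤ)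
    (hG : ∀ i, KnZ (at_ b (G i))) (F : List α → ZMod 3)
    (hF : ∀ u, F u = ∑ i, c i * ((G i u : ℤ) : ZMod 3)) : Kn (at_ b F) := by
  have h1 : Kn fun w => fun i => ((at_ b (G i) w : ℤ) : ZMod 3) :=
    Kn.pi fun i => hG i 3 (by norm_num)
  have h2 := h1.comp fun t => ∑ i, c i * t i
  refine Eq.mp (congrArg Kn ?_) h2
  funext w
  rw [at_congr hF w, at_sum]
  refine Finset.sum_congr rfl fun i _ => ?_
  exact at_hom ((AddMonoidHom.mulLeft (c i)).comp c3) b (G i) w

theorem visit2 [Finite α] {σ : Type} [Finite σ] {step : σ → α → σ} {z : σ} {b : α}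
    (hA : NoCyc (eA step z)) (hB : NoCyc (eB step z b)) (hb : step z b = z) (s : σ) :
    KnZ (at_ b fun u => ind z (u.foldl step s)) := by
  have h1 := KnZ.of_event hA z s
  have h2 := KnZ.of_event hB z s
  refine (h1.sub h2).congr fun w => ?_
  rw [eAB_formula hb w s, W_eq_at]

theorem eA_eq {σ : Type} [DecidableEq σ] (step : σ → α → σ) (z s : σ) (x : α) :
    eA step z s x = if step s x = z then none else some (step s x) := by
  unfold eA
  split_ifs <;> rfl

theorem eB_eq {σ : Type} [DecidableEq σ] (step : σ → α → σ) (z s : σ) {b x : α} (hx : x ≠ b) :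
    eB step z b s x = if step s x = z then none else some (step s x) := by
  unfold eB
  by_cases h : step s x = z
  · rw [if_pos h, if_pos h, if_neg fun h => hx h.2]
  · rw [if_neg h, if_neg h]

theorem eB_self {σ : Type} {step : σ → α → σ} {z s : σ} {b : α} (h : step s b = s) :
    eB step z b s b = some s := by
  unfold eB
  by_cases h1 : s = z
  · rw [if_pos (h.trans h1), if_pos ⟨h1, rfl⟩, h1]
  · rw [if_neg (by rw [h]; exact h1), h]

end general

variable {α : Type} (r : α → Bool)

open Classical in
/-- the walk of a letter -/
noncomputable def stM (a : α) (m : ZMod 3) (x : α) : ZMod 3 :=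
  if r x = true then (if x = a then -(m + 1) else -m) else (if x = a then m + 1 else m)

/-- the twisted count of a letter, seen from the end -/
noncomputable def M (a : α) (u : List α) : ZMod 3 := u.foldl (stM r a) 0

theorem M_nil (a : α) : M r a [] = 0 := rfl
theorem M_snoc (a : α) (u : List α) (x : α) : M r a (u ++ [x]) = stM r a (M r a u) x := by
  rw [M, List.foldl_append]; rfl

variable {r}

theorem pot_refl {a : α} (ha : r a = true) :
    PotOK (stM r a) 2 (fun m => if m = 2 then 0 else 1) := by
  intro s x
  by_cases hr : r x = true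
  · by_cases hx : x = a
    · simp only [stM, if_pos hr, if_pos hx]; revert s; decide
    · simp only [stM, if_pos hr, if_neg hx]; revert s; decide
  · have hx : x ≠ a := fun h => hr (by rw [h]; exact ha)
    simp only [stM, if_neg hr, if_neg hx]
    exact Or.inr (Or.inl trivial)

theorem pot_one {a : α} (ha : r a = false) :
    PotOK (stM r a) 1 (fun m => if m = 1 then 0 else if m = 2 then 1 else 2) := by
  intro s x
  by_cases hr : r x = true
  · have hx : x ≠ a := fun h => by rw [h, ha] at hr; cases hr
    simp only [stM, if_pos hr, if_neg hx]; revert s; decide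
  · by_cases hx : x = a
    · simp only [stM, if_neg hr, if_pos hx]; revert s; decide
    · simp only [stM, if_neg hr, if_neg hx]
      exact Or.inr (Or.inl trivial)

theorem pot_two {a : α} (ha : r a = false) :
    PotOK (stM r a) 2 (fun m => if m = 2 then 0 else if m = 0 then 1 else 2) := by
  intro s x
  by_cases hr : r x = true
  · have hx : x ≠ a := fun h => by rw [h, ha] at hr; cases hr
    simp only [stM, if_pos hr, if_neg hx]; revert s; decide
  · by_cases hx : x = a
    · simp only [stM, if_neg hr, if_pos hx]; revert s; decide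
    · simp only [stM, if_neg hr, if_neg hx]
      exact Or.inr (Or.inl trivial)

theorem M_known [Finite α] (a : α) : Kn (M r a) := by
  by_cases ha : r a = true
  · exact fold_known (pot_refl ha) 0
  · exact fold_known (pot_one (Bool.eq_false_iff.2 ha)) 0

theorem caseI [Finite α] {a b : α} (ha : r a = false) (hb : r b = false) (hab : b ≠ a) :
    Kn (at_ b (M r a)) := by
  have hs : ∀ m, stM r a m b = m := by
    intro m
    rw [stM, if_neg (by rw [hb]; exact Bool.false_ne_true), if_neg hab]
  refine lc (ι := Bool) (fun i => if i then 1 else 2)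
    (fun i u => ind (if i then (1 : ZMod 3) else 2) (M r a u)) ?_ _ ?_
  · intro i
    cases i
    · refine (visit_known (pot_two ha) (hs 2) 0).congr fun w => ?_
      rw [W_eq_at]; rfl
    · refine (visit_known (pot_one ha) (hs 1) 0).congr fun w => ?_
      rw [W_eq_at]; rfl
  · intro u
    simp only [indz]
    generalize M r a u = m
    revert m
    decide

/-! ### a reflection and a positive letter -/

open Classical in
/-- the ladder moving at class `q` -/
noncomputable def lad (r : α → Bool) (a : α) (q : Bool) (s : Bool × ZMod 3) (x : α) :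
    Bool × ZMod 3 :=
  if r x = true then
    (!s.1, if s.1 = q then (if x = a then s.2 - 1 else s.2 + 1) else s.2) else s

/-- codes of the states -/
def enc (s : Bool × ZMod 3) : ℕ := if s.1 then s.2.val else 3 + s.2.val

theorem enc_inj : Function.Injective enc := by
  have h : ∀ s t : Bool × ZMod 3, enc s = enc t → s = t := by decide +kernel
  exact fun s t => h s t

theorem enc_lt : ∀ s, enc s < 7 := by decide +kernel

open Classical in
/-- tables of the letters -/
noncomputable def cA (r : α → Bool) (a : α) (q : Bool) (x : α) : List ℕ :=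
  if r x = true then
    (if x = a then (if q then [5, 3, 4, 7, 1, 2, 7, 7] else [3, 4, 5, 2, 7, 1, 7, 7])
      else (if q then [4, 5, 3, 7, 1, 2, 7, 7] else [3, 4, 5, 1, 2, 7, 7, 7]))
  else [7, 1, 2, 3, 4, 5, 7, 7]

theorem cA_step (a : α) (q : Bool) (s : Bool × ZMod 3) (x : α) :
    ev enc (if lad r a q s x = (true, 0) then none else some (lad r a q s x)) =
      (cA r a q x).getD (enc s) 7 := by
  by_cases hr : r x = true
  · by_cases hx : x = a
    · simp only [lad, cA, if_pos hr, if_pos hx]
      revert q s; decide +kernel
    · simp only [lad, cA, if_pos hr, if_neg hx]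
      revert q s; decide +kernel
  · simp only [lad, cA, if_neg hr]
    revert s; decide +kernel

theorem lad_noCycA (a : α) (q : Bool) : NoCyc (eA (lad r a q) (true, 0)) := by
  have h : ∀ s x, ev enc (eA (lad r a q) (true, 0) s x) = (cA r a q x).getD (enc s) 7 := by
    intro s x
    rw [eA_eq, cA_step]
  cases q
  · refine noCyc_table enc enc_inj enc_lt (cA r a false) g3 t3 ok3 (fun x => ?_) h
    unfold cA g3
    split_ifs <;> first | (simp; done) | simp_all
  · refine noCyc_table enc enc_inj enc_lt (cA r a true) g4 t4 ok4 (fun x => ?_) h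
    unfold cA g4
    split_ifs <;> first | (simp; done) | simp_all

open Classical in
theorem lad_noCycB (a : α) {b : α} (hb : r b = false) (q : Bool) :
    NoCyc (eB (lad r a q) (true, 0) b) := by
  have hs : ∀ s, lad r a q s b = s := by
    intro s
    rw [lad, if_neg (by rw [hb]; exact Bool.false_ne_true)]
  have h : ∀ s x, ev enc (eB (lad r a q) (true, 0) b s x) =
      (if x = b then [0, 1, 2, 3, 4, 5, 7, 7] else cA r a q x).getD (enc s) 7 := by
    intro s x
    by_cases hx : x = b
    · rw [if_pos hx, hx, eB_self (hs s)]
      revert s; decide +kernel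
    · rw [eB_eq _ _ _ hx, cA_step, if_neg hx]
  cases q
  · refine noCyc_table enc enc_inj enc_lt _ g3 t3 ok3 (fun x => ?_) h
    unfold cA g3
    split_ifs <;> first | (simp; done) | simp_all
  · refine noCyc_table enc enc_inj enc_lt _ g4 t4 ok4 (fun x => ?_) h
    unfold cA g4
    split_ifs <;> first | (simp; done) | simp_all

/-- coefficients -/
def cf (i : Bool × Bool × ZMod 3) : ZMod 3 :=
  (if i.2.1 then -i.2.2 else i.2.2) + (if i.1 = false ∧ i.2.1 = true then 1 else 0)

theorem k1 : ∀ (t : Bool) (z0 z1 : ZMod 3),
    -((if t = true then z1 - z0 + 1 else z0 - z1) + 1) =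
      if (!t) = true then
        (if true = t then z1 - 1 else z1) - (if false = t then z0 - 1 else z0) + 1
      else (if false = t then z0 - 1 else z0) - (if true = t then z1 - 1 else z1) := by
  decide +kernel

theorem k2 : ∀ (t : Bool) (z0 z1 : ZMod 3),
    -(if t = true then z1 - z0 + 1 else z0 - z1) =
      if (!t) = true then
        (if true = t then z1 + 1 else z1) - (if false = t then z0 + 1 else z0) + 1
      else (if false = t then z0 + 1 else z0) - (if true = t then z1 + 1 else z1) := by
  decide +kernel

theorem k3 : ∀ (p q t : Bool) (y z : ZMod 3),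
    (!(xor p t), if xor p t = q then y + z - 1 else y + z) =
      (xor p !t, y + if xor p q = t then z - 1 else z) := by
  decide +kernel

theorem k4 : ∀ (p q t : Bool) (y z : ZMod 3),
    (!(xor p t), if xor p t = q then y + z + 1 else y + z) =
      (xor p !t, y + if xor p q = t then z + 1 else z) := by
  decide +kernel

theorem k5 : ∀ (t : Bool) (z0 z1 : ZMod 3),
    (if t = true then z1 - z0 + 1 else z0 - z1) = ∑ i : Bool × Bool × ZMod 3,
      cf i * (if (xor i.1 t, i.2.2 + (if xor i.1 i.2.1 = true then z1 else z0)) =
        (true, (0 : ZMod 3)) then 1 else 0) := by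
  decide +kernel

theorem lad_inv {a : α} (ha : r a = true) (u : List α) : ∃ (t : Bool) (z : Bool → ZMod 3),
    M r a u = (if t = true then z true - z false + 1 else z false - z true) ∧
    ∀ p q y, u.foldl (lad r a q) (p, y) = (xor p t, y + z (xor p q)) := by
  induction u using List.reverseRecOn with
  | nil =>
    refine ⟨false, fun _ => 0, ?_, fun p q y => ?_⟩
    · rw [M_nil]; decide
    · rw [List.foldl_nil, Bool.xor_false, add_zero]
  | append_singleton u x ih =>
    obtain ⟨t, z, h1, h2⟩ := ih
    by_cases hr : r x = true
    · by_cases hx : x = a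
      · refine ⟨!t, fun i => if i = t then z i - 1 else z i, ?_, fun p q y => ?_⟩
        · rw [M_snoc, h1, stM, if_pos hr, if_pos hx]
          exact k1 t (z false) (z true)
        · rw [List.foldl_append, h2, List.foldl_cons, List.foldl_nil, lad, if_pos hr]
          simp only [if_pos hx]
          exact k3 p q t y (z (xor p q))
      · refine ⟨!t, fun i => if i = t then z i + 1 else z i, ?_, fun p q y => ?_⟩
        · rw [M_snoc, h1, stM, if_pos hr, if_neg hx]
          exact k2 t (z false) (z true)
        · rw [List.foldl_append, h2, List.foldl_cons, List.foldl_nil, lad, if_pos hr]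
          simp only [if_neg hx]
          exact k4 p q t y (z (xor p q))
    · refine ⟨t, z, ?_, fun p q y => ?_⟩
      · have hx : x ≠ a := fun h => hr (by rw [h]; exact ha)
        rw [M_snoc, h1, stM, if_neg hr, if_neg hx]
      · rw [List.foldl_append, h2, List.foldl_cons, List.foldl_nil, lad, if_neg hr]

theorem caseII [Finite α] {a b : α} (ha : r a = true) (hb : r b = false) :
    Kn (at_ b (M r a)) := by
  refine lc (ι := Bool × Bool × ZMod 3) cf
    (fun i u => ind (true, (0 : ZMod 3)) (u.foldl (lad r a i.2.1) (i.1, i.2.2))) ?_ _ ?_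
  · intro i
    refine visit2 (lad_noCycA a i.2.1) (lad_noCycB a hb i.2.1) ?_ _
    rw [lad, if_neg (by rw [hb]; exact Bool.false_ne_true)]
  · intro u
    obtain ⟨t, z, h1, h2⟩ := lad_inv ha u
    rw [h1, k5 t (z false) (z true)]
    refine Finset.sum_congr rfl fun i _ => ?_
    rw [h2, indz]
    obtain ⟨p, q, y⟩ := i
    cases p <;> cases q <;> rfl

/-! ### two reflections -/

open Classical in
/-- the walk with split state -/
noncomputable def d3 (r : α → Bool) (a b : α) (s : Fin 4) (x : α) : Fin 4 :=
  if r x = true then
    (if x = a then ![2, 1, 0, 3] s else if x = b then ![0, 2, 1, 2] s else ![0, 2, 3, 2] s)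
  else s

open Classical in
/-- first automaton -/
noncomputable def e1 (r : α → Bool) (a b : α) (s : Fin 4) (x : α) : Option (Fin 4) :=
  if r x = true then
    (if x = a then ![none, some 1, some 0, some 3] s
      else if x = b then ![some 0, none, some 1, none] s
        else ![some 0, some 2, some 3, none] s)
  else some s

open Classical in
/-- second automaton -/
noncomputable def e2 (r : α → Bool) (a b : α) (s : Fin 4) (x : α) : Option (Fin 4) :=
  if r x = true then
    (if x = a then ![none, some 1, some 0, some 3] s
      else if x = b then ![some 0, none, some 1, some 2] s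
        else ![some 0, none, some 3, none] s)
  else some s

open Classical in
theorem e1_noCyc (a b : α) : NoCyc (e1 r a b) := by
  refine noCyc_table (fun s : Fin 4 => s.val) Fin.val_injective (fun s => by omega)
    (fun x => if r x = true then (if x = a then [7, 1, 0, 3, 7, 7, 7, 7]
      else if x = b then [0, 7, 1, 7, 7, 7, 7, 7] else [0, 2, 3, 7, 7, 7, 7, 7])
      else [0, 1, 2, 3, 7, 7, 7, 7]) g1 t1 ok1 (fun x => ?_) ?_
  · unfold g1
    split_ifs <;> simp
  · intro s x
    unfold e1
    split_ifs <;> (revert s; decide +kernel)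

open Classical in
theorem e2_noCyc (a b : α) : NoCyc (e2 r a b) := by
  refine noCyc_table (fun s : Fin 4 => s.val) Fin.val_injective (fun s => by omega)
    (fun x => if r x = true then (if x = a then [7, 1, 0, 3, 7, 7, 7, 7]
      else if x = b then [0, 7, 1, 2, 7, 7, 7, 7] else [0, 7, 3, 7, 7, 7, 7, 7])
      else [0, 1, 2, 3, 7, 7, 7, 7]) g2 t2 ok2 (fun x => ?_) ?_
  · unfold g2
    split_ifs <;> simp
  · intro s x
    unfold e2
    split_ifs <;> (revert s; decide +kernel)

/-- values of the states -/
def vl : Fin 4 → ℤ := ![0, 1, -1, 1]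

/-- indicator of the state `1` -/
def i1 : Fin 4 → ℤ := ![0, 1, 0, 0]

theorem refl_formula {a b : α} (hb : r b = true) (hab : b ≠ a) (w : List α) (s : Fin 4) :
    W (d3 r a b) b vl s w =
      (cnt (e1 r a b) 2 s w : ℤ) - cnt (e2 r a b) 2 s w - i1 (w.foldl (d3 r a b) s) + i1 s := by
  induction w generalizing s with
  | nil => rw [W_nil, cnt_nil, cnt_nil, List.foldl_nil]; push_cast; ring
  | cons x w ih =>
    rw [W_cons, List.foldl_cons, ih]
    have key : ∀ (o1 o2 : Option (Fin 4)), e1 r a b s x = o1 → e2 r a b s x = o2 →
        (cnt (e1 r a b) 2 s (x :: w) : ℤ) = cnt (e1 r a b) 2 (o1.elim 2 id) w +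
            (if o1 = none then 1 else 0) ∧
        (cnt (e2 r a b) 2 s (x :: w) : ℤ) = cnt (e2 r a b) 2 (o2.elim 2 id) w +
            (if o2 = none then 1 else 0) := by
      intro o1 o2 h1 h2
      constructor
      · rcases o1 with _ | t
        · rw [cnt_cons_none w h1]; push_cast; rfl
        · rw [cnt_cons_some w h1]; simp
      · rcases o2 with _ | t
        · rw [cnt_cons_none w h2]; push_cast; rfl
        · rw [cnt_cons_some w h2]; simp
    obtain ⟨k1, k2⟩ := key _ _ rfl rfl
    rw [k1, k2]
    by_cases hr : r x = true
    · by_cases hx : x = a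
      · have hxb : x ≠ b := fun h => hab (by rw [← h, hx])
        simp only [d3, e1, e2, if_pos hr, if_pos hx, if_neg hxb]
        fin_cases s <;> simp [i1]
      · by_cases hxb : x = b
        · simp only [d3, e1, e2, if_pos hr, if_neg hx, if_pos hxb]
          fin_cases s <;> simp [i1, vl] <;> ring
        · simp only [d3, e1, e2, if_pos hr, if_neg hx, if_neg hxb]
          fin_cases s <;> simp [i1] <;> ring
    · have hxb : x ≠ b := fun h => hr (by rw [h]; exact hb)
      simp only [d3, e1, e2, if_neg hr, if_neg hxb]
      simp

theorem vl_eq : ∀ s : Fin 4, ((vl s : ℤ) : ZMod 3) = ![(0 : ZMod 3), 1, 2, 1] s := by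
  decide +kernel

theorem k6 : ∀ s : Fin 4, -((![(0 : ZMod 3), 1, 2, 1] s) + 1) =
    ![(0 : ZMod 3), 1, 2, 1] (![(2 : Fin 4), 1, 0, 3] s) := by decide +kernel

theorem k7 : ∀ s : Fin 4, -(![(0 : ZMod 3), 1, 2, 1] s) =
    ![(0 : ZMod 3), 1, 2, 1] (![(0 : Fin 4), 2, 1, 2] s) := by decide +kernel

theorem k8 : ∀ s : Fin 4, -(![(0 : ZMod 3), 1, 2, 1] s) =
    ![(0 : ZMod 3), 1, 2, 1] (![(0 : Fin 4), 2, 3, 2] s) := by decide +kernel

theorem M_d3 {a : α} (ha : r a = true) (b : α) (u : List α) :
    M r a u = ((vl (u.foldl (d3 r a b) 0) : ℤ) : ZMod 3) := by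
  induction u using List.reverseRecOn with
  | nil => rw [M_nil, List.foldl_nil]; decide
  | append_singleton u x ih =>
    rw [M_snoc, ih, List.foldl_append, List.foldl_cons, List.foldl_nil, vl_eq, vl_eq]
    generalize u.foldl (d3 r a b) 0 = s
    by_cases hr : r x = true
    · by_cases hx : x = a
      · rw [stM, d3, if_pos hr, if_pos hr, if_pos hx, if_pos hx]
        exact k6 s
      · by_cases hxb : x = b
        · rw [stM, d3, if_pos hr, if_pos hr, if_neg hx, if_neg hx, if_pos hxb]
          exact k7 s
        · rw [stM, d3, if_pos hr, if_pos hr, if_neg hx, if_neg hx, if_neg hxb]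
          exact k8 s
    · have hx : x ≠ a := fun h => hr (by rw [h]; exact ha)
      rw [stM, d3, if_neg hr, if_neg hr, if_neg hx]

theorem fin_e1 (a b : α) (w : List α) (s : Fin 4) :
    ((e1 r a b) |> fun δ => fin δ 2 s w) = w.foldl (d3 r a b) s := by
  induction w generalizing s with
  | nil => rfl
  | cons x w ih =>
    rw [List.foldl_cons, ← ih]
    have h : ∀ t, e1 r a b s x = some t → t = d3 r a b s x := by
      intro t ht
      unfold e1 at ht
      unfold d3
      by_cases hr : r x = true
      · by_cases hx : x = a
        · simp only [if_pos hr, if_pos hx] at ht ⊢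
          revert s t; decide +kernel
        · by_cases hxb : x = b
          · simp only [if_pos hr, if_neg hx, if_pos hxb] at ht ⊢
            revert s t; decide +kernel
          · simp only [if_pos hr, if_neg hx, if_neg hxb] at ht ⊢
            revert s t; decide +kernel
      · simp only [if_neg hr] at ht ⊢
        exact (Option.some.inj ht).symm
    have h' : e1 r a b s x = none → d3 r a b s x = 2 := by
      clear h
      intro ht
      unfold e1 at ht
      unfold d3
      by_cases hr : r x = true
      · by_cases hx : x = a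
        · simp only [if_pos hr, if_pos hx] at ht ⊢
          revert s; decide +kernel
        · by_cases hxb : x = b
          · simp only [if_pos hr, if_neg hx, if_pos hxb] at ht ⊢
            revert s; decide +kernel
          · simp only [if_pos hr, if_neg hx, if_neg hxb] at ht ⊢
            revert s; decide +kernel
      · simp only [if_neg hr] at ht
        cases ht
    show fin (e1 r a b) 2 s (x :: w) = fin (e1 r a b) 2 (d3 r a b s x) w
    rcases hs : e1 r a b s x with _ | t
    · rw [fin_cons_none w hs, h' hs]
    · rw [fin_cons_some w hs, h t hs]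

theorem caseIII [Finite α] {a b : α} (ha : r a = true) (hb : r b = true) (hab : b ≠ a) :
    Kn (at_ b (M r a)) := by
  have h1 := KnZ.of_event (e1_noCyc (r := r) a b) 2 0
  have h2 := KnZ.of_event (e2_noCyc (r := r) a b) 2 0
  have h3 := KnZ.of_kn (Kn.of_event (e1_noCyc (r := r) a b) 2 0) i1
  refine lc (ι := Unit) (fun _ => 1) (fun _ u => vl (u.foldl (d3 r a b) 0)) ?_ _ ?_
  · intro _
    refine ((h1.sub h2).sub h3).congr fun w => ?_
    rw [← W_eq_at, refl_formula hb hab, show fin (e1 r a b) 2 0 w = w.foldl (d3 r a b) 0 from
      fin_e1 a b w 0]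
    have : i1 0 = 0 := by decide
    rw [this, add_zero]
  · intro u
    rw [M_d3 ha b, Finset.univ_unique, Finset.sum_singleton, one_mul]

/-! ### all pairs -/

/-- number of occurrences modulo three -/
noncomputable def nn (a : α) (u : List α) : ZMod 3 := at_ a (fun _ => (1 : ZMod 3)) u

open Classical in
theorem nn_snoc (a : α) (u : List α) (x : α) :
    nn a (u ++ [x]) = nn a u + if x = a then 1 else 0 := at_snoc _ _ _ _

theorem nn_known [Finite α] (a : α) : Kn (nn a) := by
  have h := len_known (fun (_ : Unit) (_ : α) => ()) a () 3 (by norm_num)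
  refine Eq.mp (congrArg Kn ?_) h
  funext w
  rw [W_eq_at]
  show c3 _ = _
  rw [at_hom]
  exact at_congr (fun u => Int.cast_one) w

theorem k9 : ∀ m n p : ZMod 3, m * m = n + 2 * p →
    (m + 1) * (m + 1) = (n + 1) + 2 * (p + m) ∧ (-(m + 1)) * (-(m + 1)) = (n + 1) + 2 * (p + m) ∧
    (-m) * (-m) = n + 2 * p := by decide +kernel

theorem diag (a : α) (u : List α) : M r a u * M r a u = nn a u + 2 * at_ a (M r a) u := by
  induction u using List.reverseRecOn with
  | nil => rw [M_nil, nn, at_nil, at_nil]; decide
  | append_singleton u x ih =>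
    rw [M_snoc, nn_snoc, at_snoc]
    obtain ⟨h1, h2, h3⟩ := k9 _ _ _ ih
    by_cases hx : x = a
    · rw [if_pos hx, if_pos hx]
      by_cases hr : r x = true
      · rw [stM, if_pos hr, if_pos hx]; exact h2
      · rw [stM, if_neg hr, if_pos hx]; exact h1
    · rw [if_neg hx, if_neg hx, add_zero, add_zero]
      by_cases hr : r x = true
      · rw [stM, if_pos hr, if_neg hx]; exact h3
      · rw [stM, if_neg hr, if_neg hx]; exact ih

theorem swap {a b : α} (hab : b ≠ a) (u : List α) :
    M r a u * M r b u = at_ b (M r a) u + at_ a (M r b) u := by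
  induction u using List.reverseRecOn with
  | nil => rw [M_nil, M_nil, at_nil, at_nil, mul_zero, add_zero]
  | append_singleton u x ih =>
    rw [M_snoc, M_snoc, at_snoc, at_snoc]
    by_cases hx : x = a
    · have hxb : x ≠ b := fun h => hab (by rw [← h, hx])
      by_cases hr : r x = true
      · rw [stM, stM, if_pos hr, if_pos hr, if_pos hx, if_pos hx, if_neg hxb, if_neg hxb]
        linear_combination ih
      · rw [stM, stM, if_neg hr, if_neg hr, if_pos hx, if_pos hx, if_neg hxb, if_neg hxb]
        linear_combination ih
    · by_cases hxb : x = b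
      · by_cases hr : r x = true
        · rw [stM, stM, if_pos hr, if_pos hr, if_neg hx, if_neg hx, if_pos hxb, if_pos hxb]
          linear_combination ih
        · rw [stM, stM, if_neg hr, if_neg hr, if_neg hx, if_neg hx, if_pos hxb, if_pos hxb]
          linear_combination ih
      · by_cases hr : r x = true
        · rw [stM, stM, if_pos hr, if_pos hr, if_neg hx, if_neg hx, if_neg hxb, if_neg hxb]
          linear_combination ih
        · rw [stM, stM, if_neg hr, if_neg hr, if_neg hx, if_neg hx, if_neg hxb, if_neg hxb]
          linear_combination ih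

theorem swap_known [Finite α] {a b : α} (hab : b ≠ a) (h : Kn (at_ a (M r b))) :
    Kn (at_ b (M r a)) := by
  have h1 := ((M_known (r := r) a).comp₂ (M_known (r := r) b) fun x y => x * y).comp₂ h
    fun x y => x - y
  refine Eq.mp (congrArg Kn ?_) h1
  funext w
  rw [swap hab, add_sub_cancel_right]

theorem k10 : ∀ m n p : ZMod 3, m * m = n + 2 * p → n - m * m = p := by decide +kernel

variable (r)

/-- The twisted pair counts modulo three. -/
theorem pair_known [Finite α] (a b : α) : Kn (at_ b (M r a)) := by
  by_cases hab : b = a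
  · subst hab
    have h1 := (nn_known b).comp₂ ((M_known (r := r) b).comp₂ (M_known (r := r) b)
      fun x y => x * y) fun x y => x - y
    refine Eq.mp (congrArg Kn ?_) h1
    funext w
    exact k10 _ _ _ (diag b w)
  · rcases ha : r a with _ | _
    · rcases hb : r b with _ | _
      · exact caseI ha hb hab
      · exact swap_known hab (caseII hb ha)
    · rcases hb : r b with _ | _
      · exact caseII ha hb
      · exact caseIII ha hb hab

/-- The pair counts modulo three. -/
theorem npair_known [Finite α] (a b : α) : Kn (at_ b (nn a)) := by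
  have h := pair_known (α := α) (fun _ => false) a b
  refine Eq.mp (congrArg Kn ?_) h
  funext w
  refine at_congr (fun u => ?_) w
  induction u using List.reverseRecOn with
  | nil => rfl
  | append_singleton u x ih =>
    rw [M_snoc, nn_snoc, ih, stM, if_neg Bool.false_ne_true]
    by_cases hx : x = a
    · rw [if_pos hx, if_pos hx]
    · rw [if_neg hx, if_neg hx, add_zero]

end Vale.Agent.P329.H697
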