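import Vale.Agent.P329.H697.Core
import Vale.Agent.P329.R3.H211.Main

/-! Pair counts with signs modulo three. -/

namespace Vale.Agent.P329.H697

open Vale.Agent.P329 Vale.Agent.P329.S4

variable {α : Type} (r : α → Bool)

/-- parity of a prefix -/
def pb (u : List α) : Bool := u.foldl (fun p x => xor p (r x)) false

theorem pb_nil : pb r [] = false := rfl
theorem pb_snoc (u : List α) (x : α) : pb r (u ++ [x]) = xor (pb r u) (r x) := by
  rw [pb, List.foldl_append]; rfl

/-- sign of a parity -/
def s3 (p : Bool) : ZMod 3 := if p = true then -1 else 1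

theorem s3_sq : ∀ p, s3 p * s3 p = 1 := by decide
theorem s3_xor : ∀ p q, s3 (xor p q) = s3 p * s3 q := by decide

/-- signed count of a letter -/
noncomputable def XX (a : α) (u : List α) : ZMod 3 := s3 (pb r u) * M r a u

theorem XX_nil (a : α) : XX r a [] = 0 := by rw [XX, M_nil, mul_zero]

open Classical in
theorem XX_snoc (a : α) (u : List α) (x : α) :
    XX r a (u ++ [x]) = XX r a u + if x = a then s3 (pb r u) else 0 := by
  rw [XX, XX, pb_snoc, M_snoc, s3_xor]
  generalize s3 (pb r u) = s
  generalize M r a u = m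
  by_cases hx : x = a
  · by_cases hr : r x = true
    · rw [stM, if_pos hr, if_pos hx, if_pos hx, hr, show s3 true = -1 from rfl]; ring
    · rw [stM, if_neg hr, if_pos hx, if_pos hx, Bool.eq_false_iff.2 hr,
        show s3 false = 1 from rfl]; ring
  · by_cases hr : r x = true
    · rw [stM, if_pos hr, if_neg hx, if_neg hx, hr, show s3 true = -1 from rfl]; ring
    · rw [stM, if_neg hr, if_neg hx, if_neg hx, Bool.eq_false_iff.2 hr,
        show s3 false = 1 from rfl]; ring

theorem XX_eq_at (a : α) (u : List α) : XX r a u = at_ a (fun v => s3 (pb r v)) u := by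
  induction u using List.reverseRecOn with
  | nil => rw [XX_nil, at_nil]
  | append_singleton u x ih => rw [XX_snoc, at_snoc, ih]

theorem pb_known [Finite α] : Kn (pb r) := by
  have h := comm_known (H := Multiplicative (ZMod 2))
    (fun x : α => Multiplicative.ofAdd (if r x = true then (1 : ZMod 2) else 0))
  refine Eq.mp (congrArg Kn ?_) (h.comp fun t => decide (Multiplicative.toAdd t = 1))
  funext w
  induction w using List.reverseRecOn with
  | nil => rfl
  | append_singleton w x ih =>
    rw [pb_snoc, ← ih, List.map_append, List.prod_append, List.map_singleton,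
      List.prod_singleton, toAdd_mul]
    generalize Multiplicative.toAdd (List.map (fun x : α => Multiplicative.ofAdd
      (if r x = true then (1 : ZMod 2) else 0)) w).prod = t
    show decide (t + (if r x = true then (1 : ZMod 2) else 0) = 1) = _
    generalize r x = q
    revert t q
    decide

theorem XX_known [Finite α] (a : α) : Kn (XX r a) :=
  (pb_known r).comp₂ (M_known (r := r) a) fun p m => s3 p * m

/-- product rule, different letters -/
theorem prod_ne {a b : α} (hab : b ≠ a) (w : List α) : XX r b w * nn a w =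
    at_ a (XX r b) w + at_ b (fun u => s3 (pb r u) * nn a u) w := by
  induction w using List.reverseRecOn with
  | nil => rw [XX_nil, at_nil, at_nil, zero_mul, add_zero]
  | append_singleton w x ih =>
    rw [XX_snoc, nn_snoc, at_snoc, at_snoc]
    by_cases hx : x = a
    · have hxb : x ≠ b := fun h => hab (by rw [← h, hx])
      rw [if_neg hxb, if_pos hx, if_pos hx, if_neg hxb]
      linear_combination ih
    · rw [if_neg hx, if_neg hx]
      by_cases hxb : x = b
      · rw [if_pos hxb, if_pos hxb]
        linear_combination ih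
      · rw [if_neg hxb, if_neg hxb]
        linear_combination ih

/-- product rule, equal letters -/
theorem prod_eq (a : α) (w : List α) : XX r a w * nn a w =
    at_ a (XX r a) w + at_ a (fun u => s3 (pb r u) * nn a u) w + XX r a w := by
  induction w using List.reverseRecOn with
  | nil => rw [XX_nil, at_nil, at_nil, zero_mul, add_zero, add_zero]
  | append_singleton w x ih =>
    rw [XX_snoc, nn_snoc, at_snoc, at_snoc]
    by_cases hx : x = a
    · rw [if_pos hx, if_pos hx, if_pos hx, if_pos hx]
      linear_combination ih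
    · rw [if_neg hx, if_neg hx, if_neg hx, if_neg hx]
      linear_combination ih

variable {r}

/-- from `F` to `F'` -/
theorem F_to_F' [Finite α] {a b : α} (hab : b ≠ a) (h : Kn (at_ a (XX r b))) :
    Kn (at_ b fun u => s3 (pb r u) * nn a u) := by
  have h1 := ((XX_known r b).comp₂ (nn_known a) fun x y => x * y).comp₂ h fun x y => x - y
  refine Eq.mp (congrArg Kn ?_) h1
  funext w
  rw [prod_ne r hab]; ring

/-- from `F'` to `F` -/
theorem F'_to_F [Finite α] {a b : α} (hab : b ≠ a)
    (h : Kn (at_ b fun u => s3 (pb r u) * nn a u)) : Kn (at_ a (XX r b)) := by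
  have h1 := ((XX_known r b).comp₂ (nn_known a) fun x y => x * y).comp₂ h fun x y => x - y
  refine Eq.mp (congrArg Kn ?_) h1
  funext w
  rw [prod_ne r hab]; ring

theorem F_to_F'_eq [Finite α] {a : α} (h : Kn (at_ a (XX r a))) :
    Kn (at_ a fun u => s3 (pb r u) * nn a u) := by
  have h1 := ((XX_known r a).comp₂ (nn_known a) fun x y => x * y - x).comp₂ h fun x y => x - y
  refine Eq.mp (congrArg Kn ?_) h1
  funext w
  rw [prod_eq r]; ring

theorem F'_to_F_eq [Finite α] {a : α} (h : Kn (at_ a fun u => s3 (pb r u) * nn a u)) :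
    Kn (at_ a (XX r a)) := by
  have h1 := ((XX_known r a).comp₂ (nn_known a) fun x y => x * y - x).comp₂ h fun x y => x - y
  refine Eq.mp (congrArg Kn ?_) h1
  funext w
  rw [prod_eq r]; ring

/-! ### a reflection, any second letter -/

variable (r)

/-- number of reflections modulo three -/
def kk (u : List α) : ZMod 3 := u.foldl (fun k x => if r x = true then k + 1 else k) 0

theorem kk_snoc (u : List α) (x : α) :
    kk r (u ++ [x]) = if r x = true then kk r u + 1 else kk r u := by
  rw [kk, List.foldl_append]; rfl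

/-- sign of a residue modulo six -/
def sg6 (e : ZMod 6) : ZMod 3 := if e.val % 2 = 0 then 1 else -1

/-- reduction modulo three -/
def m6 (e : ZMod 6) : ZMod 3 := (e.val : ZMod 3)

theorem j1 : ∀ e : ZMod 6, sg6 (e + ((1 : ℤ) : ZMod 6)) = -sg6 e ∧
    m6 (e + ((1 : ℤ) : ZMod 6)) = m6 e + 1 := by decide +kernel
theorem j2 : ∀ e : ZMod 6, sg6 (e + ((-1 : ℤ) : ZMod 6)) = -sg6 e ∧
    m6 (e + ((-1 : ℤ) : ZMod 6)) = m6 e - 1 := by decide +kernel
theorem j0 : ∀ e : ZMod 6, e + ((0 : ℤ) : ZMod 6) = e := by decide +kernel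

open Classical in
/-- steps: `c` at `a`, one at the other reflections -/
noncomputable def fa (a : α) (c : ℤ) (x : α) : ℤ :=
  if r x = true then (if x = a then c else 1) else 0

theorem e_inv1 {a : α} (ha : r a = true) (u : List α) :
    sg6 (u.foldl (adda fun x => ((fa r a (-1) x : ℤ) : ZMod 6)) 0) = s3 (pb r u) ∧
    m6 (u.foldl (adda fun x => ((fa r a (-1) x : ℤ) : ZMod 6)) 0) = kk r u + nn a u := by
  induction u using List.reverseRecOn with
  | nil =>
    rw [List.foldl_nil, nn, at_nil, pb_nil]
    have h : kk r [] = 0 := rfl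
    rw [h]
    exact ⟨by decide, by decide⟩
  | append_singleton u x ih =>
    obtain ⟨h1, h2⟩ := ih
    rw [List.foldl_append, List.foldl_cons, List.foldl_nil, pb_snoc, s3_xor, kk_snoc, nn_snoc,
      adda, ← h1]
    generalize u.foldl (adda fun x => ((fa r a (-1) x : ℤ) : ZMod 6)) 0 = e at h1 h2 ⊢
    by_cases hr : r x = true
    · by_cases hx : x = a
      · rw [fa, if_pos hr, if_pos hx, if_pos hr, if_pos hx, (j2 e).1, (j2 e).2, h2, hr,
          show s3 true = -1 from rfl]
        refine ⟨by ring, ?_⟩
        have h3 : (3 : ZMod 3) = 0 := by decide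
        linear_combination (-1) * h3
      · rw [fa, if_pos hr, if_neg hx, if_pos hr, if_neg hx, (j1 e).1, (j1 e).2, h2, hr,
          show s3 true = -1 from rfl]
        exact ⟨by ring, by ring⟩
    · have hx : x ≠ a := fun h => hr (by rw [h]; exact ha)
      rw [fa, if_neg hr, if_neg hr, if_neg hx, j0, h2, Bool.eq_false_iff.2 hr,
        show s3 false = 1 from rfl]
      exact ⟨by ring, by ring⟩

theorem e_inv2 (a : α) (u : List α) :
    sg6 (u.foldl (adda fun x => ((fa r a 1 x : ℤ) : ZMod 6)) 0) = s3 (pb r u) ∧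
    m6 (u.foldl (adda fun x => ((fa r a 1 x : ℤ) : ZMod 6)) 0) = kk r u := by
  induction u using List.reverseRecOn with
  | nil =>
    rw [List.foldl_nil, pb_nil]
    have h : kk r [] = 0 := rfl
    rw [h]
    exact ⟨by decide, by decide⟩
  | append_singleton u x ih =>
    obtain ⟨h1, h2⟩ := ih
    rw [List.foldl_append, List.foldl_cons, List.foldl_nil, pb_snoc, s3_xor, kk_snoc,
      adda, ← h1]
    generalize u.foldl (adda fun x => ((fa r a 1 x : ℤ) : ZMod 6)) 0 = e at h1 h2 ⊢
    by_cases hr : r x = true
    · have h3 : fa r a 1 x = 1 := by rw [fa, if_pos hr, ite_self]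
      rw [h3, if_pos hr, (j1 e).1, (j1 e).2, h2, hr, show s3 true = -1 from rfl]
      exact ⟨by ring, rfl⟩
    · rw [fa, if_neg hr, if_neg hr, j0, h2, Bool.eq_false_iff.2 hr, show s3 false = 1 from rfl]
      exact ⟨by ring, rfl⟩

theorem core6 [Finite α] (φ : α → ℤ) (hφ : ∀ x, φ x = 0 ∨ φ x = 1 ∨ φ x = -1) (b : α) :
    Kn (at_ b fun u => sg6 (u.foldl (adda fun x => ((φ x : ℤ) : ZMod 6)) 0) *
      m6 (u.foldl (adda fun x => ((φ x : ℤ) : ZMod 6)) 0)) := by
  refine lc (ι := Unit) (fun _ => 1) (fun _ u =>
    (((sg6 (u.foldl (adda fun x => ((φ x : ℤ) : ZMod 6)) 0) *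
      m6 (u.foldl (adda fun x => ((φ x : ℤ) : ZMod 6)) 0)).val : ℕ) : ℤ)) ?_ _ ?_
  · intro _
    refine (H211.core α 6 φ hφ b (fun e => (((sg6 e * m6 e).val : ℕ) : ℤ)) 0).congr fun w => ?_
    rw [W_eq_at]
  · intro u
    rw [Finset.univ_unique, Finset.sum_singleton, one_mul, Int.cast_natCast, ZMod.natCast_val,
      ZMod.cast_id', id]

theorem fa_ok (a : α) {c : ℤ} (hc : c = 1 ∨ c = -1) (x : α) :
    fa r a c x = 0 ∨ fa r a c x = 1 ∨ fa r a c x = -1 := by
  unfold fa
  by_cases hr : r x = true
  · by_cases hx : x = a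
    · rw [if_pos hr, if_pos hx]; exact Or.inr hc
    · rw [if_pos hr, if_neg hx]; exact Or.inr (Or.inl rfl)
  · rw [if_neg hr]; exact Or.inl rfl

/-- `F'(a, b)` for a reflection `a` -/
theorem S1 [Finite α] {a : α} (ha : r a = true) (b : α) :
    Kn (at_ b fun u => s3 (pb r u) * nn a u) := by
  have h1 := core6 (fa r a (-1)) (fa_ok r a (Or.inr rfl)) b
  have h2 := core6 (fa r a 1) (fa_ok r a (Or.inl rfl)) b
  refine Eq.mp (congrArg Kn ?_) (h1.comp₂ h2 fun x y => x + -y)
  funext w
  have h3 : -at_ b (fun u => sg6 (u.foldl (adda fun x => ((fa r a 1 x : ℤ) : ZMod 6)) 0) *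
      m6 (u.foldl (adda fun x => ((fa r a 1 x : ℤ) : ZMod 6)) 0)) w = at_ b (fun u =>
      -(sg6 (u.foldl (adda fun x => ((fa r a 1 x : ℤ) : ZMod 6)) 0) *
      m6 (u.foldl (adda fun x => ((fa r a 1 x : ℤ) : ZMod 6)) 0))) w :=
    at_hom (negAddMonoidHom : ZMod 3 →+ ZMod 3) b _ w
  rw [h3, ← at_add]
  refine at_congr (fun u => ?_) w
  rw [(e_inv1 r ha u).1, (e_inv1 r ha u).2, (e_inv2 r a u).1, (e_inv2 r a u).2]
  ring

/-! ### a positive letter before, a reflection in the walk -/

theorem lad_inv' {a : α} (ha : r a = true) (u : List α) : ∃ z : Bool → ZMod 3,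
    M r a u = (if pb r u = true then z true - z false + 1 else z false - z true) ∧
    ∀ p q y, u.foldl (lad r a q) (p, y) = (xor p (pb r u), y + z (xor p q)) := by
  induction u using List.reverseRecOn with
  | nil =>
    refine ⟨fun _ => 0, ?_, fun p q y => ?_⟩
    · rw [M_nil, pb_nil]; decide
    · rw [List.foldl_nil, pb_nil, Bool.xor_false, add_zero]
  | append_singleton u x ih =>
    obtain ⟨z, h1, h2⟩ := ih
    rw [pb_snoc]
    generalize pb r u = t at h1 h2 ⊢
    by_cases hr : r x = true
    · rw [hr, Bool.xor_true]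
      by_cases hx : x = a
      · refine ⟨fun i => if i = t then z i - 1 else z i, ?_, fun p q y => ?_⟩
        · rw [M_snoc, h1, stM, if_pos hr, if_pos hx]
          exact k1 t (z false) (z true)
        · rw [List.foldl_append, h2, List.foldl_cons, List.foldl_nil, lad, if_pos hr]
          simp only [if_pos hx]
          exact k3 p q t y (z (xor p q))
      · refine ⟨fun i => if i = t then z i + 1 else z i, ?_, fun p q y => ?_⟩
        · rw [M_snoc, h1, stM, if_pos hr, if_neg hx]
          exact k2 t (z false) (z true)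
        · rw [List.foldl_append, h2, List.foldl_cons, List.foldl_nil, lad, if_pos hr]
          simp only [if_neg hx]
          exact k4 p q t y (z (xor p q))
    · rw [Bool.eq_false_iff.2 hr, Bool.xor_false]
      refine ⟨z, ?_, fun p q y => ?_⟩
      · have hx : x ≠ a := fun h => hr (by rw [h]; exact ha)
        rw [M_snoc, h1, stM, if_neg hr, if_neg hx]
      · rw [List.foldl_append, h2, List.foldl_cons, List.foldl_nil, lad, if_neg hr]

/-- coefficients -/
def cf2 (i : Bool × Bool × ZMod 3) : ZMod 3 := (if i.1 = true then 1 else -1) * cf i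

theorem k55 : ∀ (t : Bool) (z0 z1 : ZMod 3),
    s3 t * (if t = true then z1 - z0 + 1 else z0 - z1) = ∑ i : Bool × Bool × ZMod 3,
      cf2 i * (if (xor i.1 t, i.2.2 + (if xor i.1 i.2.1 = true then z1 else z0)) =
        (true, (0 : ZMod 3)) then 1 else 0) := by
  decide +kernel

/-- `F(a, b)` for a reflection `a` and a positive letter `b` -/
theorem S2 [Finite α] {a b : α} (ha : r a = true) (hb : r b = false) :
    Kn (at_ b (XX r a)) := by
  refine lc (ι := Bool × Bool × ZMod 3) cf2
    (fun i u => ind (true, (0 : ZMod 3)) (u.foldl (lad r a i.2.1) (i.1, i.2.2))) ?_ _ ?_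
  · intro i
    refine visit2 (lad_noCycA a i.2.1) (lad_noCycB a hb i.2.1) ?_ _
    rw [lad, if_neg (by rw [hb]; exact Bool.false_ne_true)]
  · intro u
    obtain ⟨z, h1, h2⟩ := lad_inv' r ha u
    rw [XX, h1, k55 (pb r u) (z false) (z true)]
    refine Finset.sum_congr rfl fun i _ => ?_
    rw [h2, indz]
    obtain ⟨p, q, y⟩ := i
    cases p <;> cases q <;> rfl

/-! ### two positive letters -/

theorem fold_M {a : α} (s : ZMod 3) (u : List α) :
    u.foldl (stM r a) s = s3 (pb r u) * s + M r a u := by
  induction u using List.reverseRecOn with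
  | nil => rw [List.foldl_nil, pb_nil, M_nil, show s3 false = 1 from rfl]; ring
  | append_singleton u x ih =>
    rw [List.foldl_append, ih, List.foldl_cons, List.foldl_nil, M_snoc, pb_snoc, s3_xor]
    generalize s3 (pb r u) = t
    generalize M r a u = m
    by_cases hr : r x = true
    · rw [stM, stM, if_pos hr, if_pos hr, hr, show s3 true = -1 from rfl]
      by_cases hx : x = a
      · rw [if_pos hx, if_pos hx]; ring
      · rw [if_neg hx, if_neg hx]; ring
    · rw [stM, stM, if_neg hr, if_neg hr, Bool.eq_false_iff.2 hr, show s3 false = 1 from rfl]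
      by_cases hx : x = a
      · rw [if_pos hx, if_pos hx]; ring
      · rw [if_neg hx, if_neg hx]; ring

theorem k66 : ∀ (p : Bool) (m : ZMod 3), s3 p * m - s3 p = ∑ s : ZMod 3,
    (-s) * (if s3 p * s + m = 1 then 1 else 0) := by decide +kernel

theorem XX_pt {a : α} (u : List α) : XX r a u - s3 (pb r u) = ∑ s : ZMod 3,
    (-s) * ((ind (1 : ZMod 3) (u.foldl (stM r a) s) : ℤ) : ZMod 3) := by
  rw [XX, k66]
  refine Finset.sum_congr rfl fun s _ => ?_
  rw [indz, fold_M]

/-- `F(a, b)` for different positive letters -/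
theorem S3 [Finite α] {a b : α} (ha : r a = false) (hb : r b = false) (hab : b ≠ a) :
    Kn (at_ b (XX r a)) := by
  have hs : stM r a 1 b = 1 := by
    rw [stM, if_neg (by rw [hb]; exact Bool.false_ne_true), if_neg hab]
  have h1 : Kn (at_ b fun u => XX r a u - s3 (pb r u)) := by
    refine lc (ι := ZMod 3) (fun s => -s)
      (fun s u => ind (1 : ZMod 3) (u.foldl (stM r a) s)) ?_ _ (XX_pt r)
    intro s
    refine (visit_known (pot_one ha) hs s).congr fun w => ?_
    rw [W_eq_at]
  refine Eq.mp (congrArg Kn ?_) (h1.comp₂ (XX_known r b) fun x y => x + y)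
  funext w
  rw [XX_eq_at r b, ← at_add]
  refine at_congr (fun u => ?_) w
  ring

theorem arr_count {σ : Type} [Fintype α] (step : σ → α → σ) (z : σ) (w : List α) (s : σ) :
    ∑ b, W step b (ind z) s w =
      (cnt (eA step z) z s w : ℤ) + ind z s - ind z (w.foldl step s) := by
  classical
  induction w generalizing s with
  | nil => simp [W_nil, cnt_nil]
  | cons y w ih =>
    simp only [W_cons]
    rw [Finset.sum_add_distrib, ih, Finset.sum_ite_eq, if_pos (Finset.mem_univ _),
      List.foldl_cons]
    by_cases h1 : step s y = z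
    · have e1 : eA step z s y = none := if_pos h1
      rw [cnt_cons_none w e1, h1, ind_self]
      push_cast
      ring
    · have e1 : eA step z s y = some (step s y) := if_neg h1
      rw [cnt_cons_some w e1, ind_ne h1]
      ring

theorem vis_all [Fintype α] {a : α} (ha : r a = false) (s : ZMod 3) :
    KnZ fun w => ∑ b, W (stM r a) b (ind (1 : ZMod 3)) s w := by
  have h1 := KnZ.of_event (eA_noCyc (pot_one ha)) 1 s
  have h2 := KnZ.of_kn (fold_known (pot_one ha) s) (ind (1 : ZMod 3))
  refine ((h1.add (KnZ.const (ind (1 : ZMod 3) s))).sub h2).congr fun w => ?_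
  exact arr_count (stM r a) 1 w s

/-- `F(a, a)` for a positive letter -/
theorem S4 [Finite α] {a : α} (ha : r a = false) : Kn (at_ a (XX r a)) := by
  classical
  have := Fintype.ofFinite α
  -- all positions
  have h1 : Kn fun w => fun s : ZMod 3 =>
      ((∑ b, W (stM r a) b (ind (1 : ZMod 3)) s w : ℤ) : ZMod 3) :=
    Kn.pi fun s => vis_all r ha s 3 (by norm_num)
  have h2 := h1.comp fun t => ∑ s : ZMod 3, (-s) * t s
  have h3 : Kn fun w => fun b : α => XX r b w := Kn.pi fun b => XX_known r b
  have h4 := h2.comp₂ (h3.comp fun t => ∑ b, t b) fun x y => x + y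
  have h5 : ∀ w, (∑ s : ZMod 3, (-s) * ((∑ b, W (stM r a) b (ind (1 : ZMod 3)) s w : ℤ) :
      ZMod 3)) + ∑ b, XX r b w = ∑ b, at_ b (XX r a) w := by
    intro w
    have e1 : ∀ b, at_ b (XX r a) w = (∑ s : ZMod 3, (-s) *
        ((W (stM r a) b (ind (1 : ZMod 3)) s w : ℤ) : ZMod 3)) + XX r b w := by
      intro b
      rw [XX_eq_at r b]
      have e2 : (∑ s : ZMod 3, (-s) * ((W (stM r a) b (ind (1 : ZMod 3)) s w : ℤ) : ZMod 3)) =
          at_ b (fun u => XX r a u - s3 (pb r u)) w := by
        rw [at_congr (XX_pt r) w, at_sum]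
        refine Finset.sum_congr rfl fun s _ => ?_
        rw [W_eq_at]
        exact at_hom ((AddMonoidHom.mulLeft (-s)).comp c3) b _ w
      rw [e2, ← at_add]
      refine at_congr (fun u => ?_) w
      ring
    rw [Finset.sum_congr rfl fun b _ => e1 b, Finset.sum_add_distrib, Finset.sum_comm]
    congr 1
    refine Finset.sum_congr rfl fun s _ => ?_
    rw [Int.cast_sum, Finset.mul_sum]
  have h6 : Kn fun w => ∑ b, at_ b (XX r a) w := by
    refine Eq.mp (congrArg Kn ?_) h4
    funext w
    exact h5 w
  -- the other letters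
  have h7 : ∀ b, b ≠ a → Kn (at_ b (XX r a)) := by
    intro b hb
    rcases hrb : r b with _ | _
    · exact S3 r ha hrb hb
    · exact F'_to_F (Ne.symm hb) (S1 r hrb a)
  have h8 : Kn fun w => fun b : α => if b = a then 0 else at_ b (XX r a) w := by
    apply Kn.pi
    intro b
    by_cases hb : b = a
    · simp only [if_pos hb]; exact Kn.const 0
    · simp only [if_neg hb]; exact h7 b hb
  refine Eq.mp (congrArg Kn ?_) (h6.comp₂ (h8.comp fun t => ∑ b, t b) fun x y => x - y)
  funext w
  rw [← Finset.sum_sub_distrib, Finset.sum_eq_single a]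
  · rw [if_pos rfl, sub_zero]
  · intro b _ hb
    rw [if_neg hb, sub_self]
  · intro h; exact absurd (Finset.mem_univ _) h

/-! ### all pairs -/

theorem F'_known [Finite α] (a b : α) : Kn (at_ b fun u => s3 (pb r u) * nn a u) := by
  rcases ha : r a with _ | _
  · by_cases hab : b = a
    · subst hab
      exact F_to_F'_eq (S4 r ha)
    · rcases hb : r b with _ | _
      · exact F_to_F' hab (S3 r hb ha (Ne.symm hab))
      · exact F_to_F' hab (S2 r hb ha)
  · exact S1 r ha b

theorem F_known [Finite α] (a b : α) : Kn (at_ b (XX r a)) := by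
  by_cases hab : b = a
  · subst hab
    exact F'_to_F_eq (F'_known r b b)
  · exact F'_to_F (Ne.symm hab) (F'_known r b a)

/-- number of occurrences with given parity, modulo three -/
noncomputable def cl (p : Bool) (a : α) (u : List α) : ZMod 3 :=
  at_ a (fun v => if pb r v = p then (1 : ZMod 3) else 0) u

theorem h1 : ∀ p q : Bool, (if q = p then (1 : ZMod 3) else 0) = -(1 + s3 p * s3 q) := by
  decide

open Classical in
theorem cl_eq (p : Bool) (a : α) (u : List α) :
    cl r p a u = -(nn a u + s3 p * XX r a u) := by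
  induction u using List.reverseRecOn with
  | nil => rw [cl, at_nil, nn, at_nil, XX_nil]; ring
  | append_singleton u x ih =>
    have h2 : cl r p a (u ++ [x]) = cl r p a u + if x = a then
        (if pb r u = p then (1 : ZMod 3) else 0) else 0 := at_snoc _ _ _ _
    rw [h2, ih, nn_snoc, XX_snoc, h1]
    by_cases hx : x = a
    · rw [if_pos hx, if_pos hx, if_pos hx]; ring
    · rw [if_neg hx, if_neg hx, if_neg hx]; ring

/-- all pair counts with signs -/
theorem P_known [Finite α] (p q : Bool) (a b : α) :
    Kn (at_ b fun u => (if pb r u = q then (1 : ZMod 3) else 0) * cl r p a u) := by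
  have k1 := (npair_known a b).comp₂ (F_known r a b) fun x y => x + s3 p * y
  have k2 := (F'_known r a b).comp₂ (pair_known r a b) fun x y => s3 q * (x + s3 p * y)
  refine Eq.mp (congrArg Kn ?_) (k1.comp₂ k2 fun x y => x + y)
  funext w
  have m : ∀ (c : ZMod 3) (F : List α → ZMod 3), c * at_ b F w = at_ b (fun u => c * F u) w :=
    fun c F => at_hom (AddMonoidHom.mulLeft c) b F w
  rw [m, m, ← at_add, ← at_add, m, ← at_add]
  refine at_congr (fun u => ?_) w
  rw [cl_eq, h1, XX]
  have h2 := s3_sq (pb r u)
  linear_combination (-(s3 q * s3 p * M r a u)) * h2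

end Vale.Agent.P329.H697
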