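import Mathlib.GroupTheory.Index

/-! Definition used in the statement. -/

namespace Vale.Agent.P329.H697

/-- The group `G` has a subgroup `N` of index two such that the commutators of the elements of `N`
commute with the elements of `N` and have order dividing three. -/
def ClassTwoByTwo (G : Type) [Group G] : Prop :=
  ∃ N : Subgroup G, N.index = 2 ∧ ∀ x ∈ N, ∀ y ∈ N,
    (x * y * x⁻¹ * y⁻¹) ^ 3 = 1 ∧ ∀ z ∈ N, z * (x * y * x⁻¹ * y⁻¹) = x * y * x⁻¹ * y⁻¹ * z

end Vale.Agent.P329.H697
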