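import Mathlib.GroupTheory.Index

/-! Definitions used in the statement. -/

namespace Vale.Agent.P329.H697

/-- Conditions on a map `f` of letters to a group `H`: there are an abelian normal subgroup `A` of
`H` and an element `g` of `H` such that all values of `f` are in `A`, `g A`, `g⁻¹ A`. -/
def CyclicLetters {α H : Type} [Group H] (f : α → H) : Prop :=
  ∃ (A : Subgroup H) (g : H), A.Normal ∧ (∀ a ∈ A, ∀ b ∈ A, a * b = b * a) ∧
    ∀ x, f x ∈ A ∨ g⁻¹ * f x ∈ A ∨ g * f x ∈ A

/-- Conditions on a map `f` of letters to a group `H`: there are a subgroup `N` of `H` of index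
two such that the commutators of the elements of `N` commute with the elements of `N`, and an
abelian normal subgroup `A` of `H`, such that each value of `f` is in `A` or outside `N`. -/
def OutsideLetters {α H : Type} [Group H] (f : α → H) : Prop :=
  ∃ N A : Subgroup H, N.index = 2 ∧
    (∀ x ∈ N, ∀ y ∈ N, ∀ z ∈ N, z * (x * y * x⁻¹ * y⁻¹) = x * y * x⁻¹ * y⁻¹ * z) ∧
    A.Normal ∧ (∀ a ∈ A, ∀ b ∈ A, a * b = b * a) ∧ ∀ x, f x ∉ N ∨ f x ∈ A

end Vale.Agent.P329.H697
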