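import Mathlib.GroupTheory.Index
import Mathlib.Data.Nat.Prime.Defs

/-! Definition used in the statement. -/

namespace Vale.Agent.P329.H697

/-- Condition on a map `f` of letters to a group `H`: there is a normal subgroup `N` of `H` of
prime index such that the commutators of the elements of `N` commute with all elements of `H`, and
all values of `f` are in one coset `g N`. -/
def OneCoset {α H : Type} [Group H] (f : α → H) : Prop :=
  ∃ (N : Subgroup H) (q : ℕ) (g : H), q.Prime ∧ N.Normal ∧ N.index = q ∧
    (∀ x ∈ N, ∀ y ∈ N, ∀ z : H, z * (x * y * x⁻¹ * y⁻¹) = x * y * x⁻¹ * y⁻¹ * z) ∧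
    ∀ x, g⁻¹ * f x ∈ N

end Vale.Agent.P329.H697
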