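import Vale.Agent.P329.H697.Baer

/-! Values of words in groups with a subgroup of index two whose commutators are central of order
dividing three. -/

namespace Vale.Agent.P329.H697

open Vale.Agent.P329 Vale.Agent.P329.S4

theorem Pr_snoc {α Q H : Type} [Monoid H] (act : Q → α → Q) (c : Q → α → H) (q : Q)
    (w : List α) (x : α) : Pr act c q (w ++ [x]) = Pr act c q w * c (w.foldl act q) x := by
  induction w generalizing q with
  | nil => rw [List.nil_append, Pr_cons, Pr_nil, Pr_nil, List.foldl_nil, one_mul, mul_one]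
  | cons y w ih => rw [List.cons_append, Pr_cons, Pr_cons, ih, List.foldl_cons, mul_assoc]

theorem sm_eq_at {α B : Type} [Fintype α] [AddCommMonoid B] (F : List α → α → B)
    (w : List α) : sm F w = ∑ b, at_ b (fun u => F u b) w := by
  classical
  unfold at_
  rw [← sm_sum]
  refine sm_congr (fun u x => ?_) w
  rw [Finset.sum_eq_single x]
  · rw [if_pos rfl]
  · intro b _ hb
    rw [if_neg (Ne.symm hb)]
  · intro h; exact absurd (Finset.mem_univ _) h

theorem Kn.fsum {α ι B : Type} [Fintype ι] [AddCommMonoid B] [Finite B] {F : ι → List α → B}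
    (h : ∀ i, Kn (F i)) : Kn fun w => ∑ i, F i w := by
  have h1 : Kn fun w => fun i => F i w := Kn.pi h
  exact h1.comp fun t => ∑ i, t i

section mods

variable {α B : Type} [Finite α] [AddCommGroup B] [Module (ZMod 3) B] [Finite B]

omit [Finite α] [Finite B] in
theorem smul_known {b : α} {k : List α → ZMod 3} (hk : Kn (at_ b k)) (z : B) :
    Kn (at_ b fun u => k u • z) := by
  refine Eq.mp (congrArg Kn ?_) (hk.comp fun t => t • z)
  funext w
  exact at_hom ((LinearMap.toSpanSingleton (ZMod 3) B z).toAddMonoidHom) b k w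

theorem coef_known (r : α → Bool) (a b : α) (z z' : B) : Kn (at_ b fun u =>
    (-(nn a u + M r a u)) • z + (M r a u - nn a u) • z') := by
  have h1 : Kn (at_ b fun u => -(nn a u + M r a u)) := by
    refine Eq.mp (congrArg Kn ?_)
      ((npair_known a b).comp₂ (pair_known r a b) fun x y => -(x + y))
    funext w
    rw [← at_add]
    exact at_hom (negAddMonoidHom : ZMod 3 →+ ZMod 3) b _ w
  have h2 : Kn (at_ b fun u => M r a u - nn a u) := by
    refine Eq.mp (congrArg Kn ?_)
      ((pair_known r a b).comp₂ (npair_known a b) fun x y => x + -y)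
    funext w
    have h3 : -at_ b (nn a) w = at_ b (fun u => -nn a u) w :=
      at_hom (negAddMonoidHom : ZMod 3 →+ ZMod 3) b _ w
    rw [h3, ← at_add]
    exact at_congr (fun u => (sub_eq_add_neg _ _).symm) w
  refine Eq.mp (congrArg Kn ?_) ((smul_known h1 z).comp₂ (smul_known h2 z') fun x y => x + y)
  funext w
  rw [← at_add]

theorem quad_known [Fintype α] (r : α → Bool) (g g' : α → α → B) : Kn (sm fun u x =>
    ∑ a, ((-(nn a u + M r a u)) • g a x + (M r a u - nn a u) • g' a x)) := by
  have h1 : Kn fun w => ∑ b, ∑ a, at_ b (fun u =>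
      (-(nn a u + M r a u)) • g a b + (M r a u - nn a u) • g' a b) w :=
    Kn.fsum fun b => Kn.fsum fun a => coef_known r a b _ _
  refine Eq.mp (congrArg Kn ?_) h1
  funext w
  rw [sm_eq_at]
  refine Finset.sum_congr rfl fun b _ => ?_
  rw [at_sum]

end mods

section word

variable {K : Type} [Group K] {hK : ∀ x y : K, x * y * x⁻¹ * y⁻¹ ∈ E3 K} {α : Type}
  (r : α → Bool) (n : α → K) (σ : K →* K)

/-- parity of a letter -/
def ph (x : α) : ZMod 2 := if r x = true then 1 else 0

/-- action of a parity -/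
def ac2 (p : ZMod 2) (y : K) : K := if p = 0 then y else σ y

/-- parity of a prefix -/
def par (u : List α) : ZMod 2 := u.foldl (addq (ph r)) 0

theorem par_snoc (u : List α) (x : α) : par r (u ++ [x]) = par r u + ph r x := by
  rw [par, List.foldl_append]; rfl

/-- product of the twisted letters -/
def Qw (u : List α) : K := Pr (addq (ph r)) (fun p x => ac2 σ p (n x)) 0 u

theorem Qw_nil : Qw r n σ [] = 1 := rfl
theorem Qw_snoc (u : List α) (x : α) :
    Qw r n σ (u ++ [x]) = Qw r n σ u * ac2 σ (par r u) (n x) := Pr_snoc _ _ _ _ _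

variable {σ} (hσ : ∀ y, σ (σ y) = y)

include hσ in
theorem ac2_add (p q : ZMod 2) (y : K) : ac2 σ (p + q) y = ac2 σ p (ac2 σ q y) := by
  have h : ∀ p : ZMod 2, p = 0 ∨ p = 1 := by decide
  have h11 : (1 : ZMod 2) + 1 = 0 := by decide
  have h1 : (1 : ZMod 2) ≠ 0 := by decide
  rcases h p with rfl | rfl
  · rw [zero_add]
    exact (if_pos rfl).symm
  · rcases h q with rfl | rfl
    · rw [add_zero]
      unfold ac2
      rw [if_neg h1, if_pos rfl, if_neg h1]
    · rw [h11]
      unfold ac2
      rw [if_pos rfl, if_neg h1, if_neg h1, hσ]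

variable (hc : ∀ x y : K, cc hK (σ x) (σ y) = cc hK x y)

include hc in
theorem cc_ac2 (p : ZMod 2) (x y : K) : cc hK (ac2 σ p x) (ac2 σ p y) = cc hK x y := by
  unfold ac2
  by_cases h : p = 0
  · rw [if_pos h, if_pos h]
  · rw [if_neg h, if_neg h, hc]

theorem q1 : ∀ m k : ZMod 3, -(k + 1 + (m + 1)) = -(k + m) + 1 := by decide
theorem q2 : ∀ m k : ZMod 3, m + 1 - (k + 1) = m - k := by decide
theorem q3 : ∀ m k : ZMod 3, -(k + 1 + -(m + 1)) = m - k := by decide
theorem q4 : ∀ m k : ZMod 3, -(m + 1) - (k + 1) = -(k + m) + 1 := by decide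
theorem q5 : ∀ m k : ZMod 3, -(k + -m) = m - k := by decide
theorem q6 : ∀ m k : ZMod 3, -m - k = -(k + m) := by decide

include hσ hc in
theorem cc_Q [Fintype α] (u : List α) (y : K) :
    cc hK (Qw r n σ u) (ac2 σ (par r u) y) = ∑ a, ((-(nn a u + M r a u)) • cc hK (n a) y +
      (M r a u - nn a u) • cc hK (n a) (σ y)) := by
  classical
  induction u using List.reverseRecOn generalizing y with
  | nil =>
    rw [Qw_nil, cc_one_left]
    symm
    apply Finset.sum_eq_zero
    intro a _
    rw [M_nil, nn, at_nil, add_zero, neg_zero, sub_zero, zero_smul, zero_smul, add_zero]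
  | append_singleton u x ih =>
    rw [Qw_snoc, par_snoc, cc_mul_left, ac2_add hσ, ih, cc_ac2 hc]
    by_cases hr : r x = true
    · have h1 : ac2 σ (ph r x) y = σ y := by
        rw [ph, if_pos hr]; exact if_neg (by decide)
      rw [h1, hσ]
      have h2 : cc hK (n x) (σ y) = ∑ a, if x = a then cc hK (n a) (σ y) else 0 := by
        rw [Finset.sum_ite_eq]; exact (if_pos (Finset.mem_univ _)).symm
      rw [h2, ← Finset.sum_add_distrib]
      refine Finset.sum_congr rfl fun a _ => ?_
      rw [M_snoc, nn_snoc]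
      by_cases hx : x = a
      · rw [if_pos hx, if_pos hx, stM, if_pos hr, if_pos hx, q3, q4, add_smul, one_smul]
        abel
      · rw [if_neg hx, if_neg hx, stM, if_pos hr, if_neg hx, add_zero, add_zero, q5, q6]
        abel
    · have h1 : ac2 σ (ph r x) y = y := by
        rw [ph, if_neg hr]; exact if_pos rfl
      rw [h1]
      have h2 : cc hK (n x) y = ∑ a, if x = a then cc hK (n a) y else 0 := by
        rw [Finset.sum_ite_eq]; exact (if_pos (Finset.mem_univ _)).symm
      rw [h2, ← Finset.sum_add_distrib]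
      refine Finset.sum_congr rfl fun a _ => ?_
      rw [M_snoc, nn_snoc]
      by_cases hx : x = a
      · rw [if_pos hx, if_pos hx, stM, if_neg hr, if_pos hx, q1, q2, add_smul, one_smul]
        abel
      · rw [if_neg hx, if_neg hx, stM, if_neg hr, if_neg hx, add_zero, add_zero]

/-- the commutative product -/
def Qc (hK : ∀ x y : K, x * y * x⁻¹ * y⁻¹ ∈ E3 K) (σ : K →* K) (u : List α) : Ba hK :=
  Pr (addq (ph r)) (fun p x => (⟨ac2 σ p (n x)⟩ : Ba hK)) 0 u

/-- the sum of commutators -/
noncomputable def Sw (hK : ∀ x y : K, x * y * x⁻¹ * y⁻¹ ∈ E3 K) (σ : K →* K) (w : List α) :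
    Additive (E3 K) := sm (fun u x => cc hK (Qw r n σ u) (ac2 σ (par r u) (n x))) w

theorem Qc_eq (w : List α) : (Qc r n hK σ w).val = Qw r n σ w * vE (Sw r n hK σ w) := by
  induction w using List.reverseRecOn with
  | nil =>
    rw [Qw_nil, Sw, sm_nil, vE_zero, mul_one]; rfl
  | append_singleton w x ih =>
    have h1 : Qc r n hK σ (w ++ [x]) = Qc r n hK σ w * ⟨ac2 σ (par r w) (n x)⟩ :=
      Pr_snoc _ _ _ _ _
    have h2 : Sw r n hK σ (w ++ [x]) = Sw r n hK σ w +
        cc hK (Qw r n σ w) (ac2 σ (par r w) (n x)) := sm_snoc _ _ _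
    rw [h1, ba_mul, ih, Qw_snoc, h2]
    show Qw r n σ w * vE (Sw r n hK σ w) * ac2 σ (par r w) (n x) *
      vE (cc hK (Qw r n σ w * vE (Sw r n hK σ w)) (ac2 σ (par r w) (n x))) = _
    rw [cc_mul_left, cc_vE, add_zero, vE_add, mul_assoc (Qw r n σ w) (vE _), ← vE_cen]
    simp only [mul_assoc]

include hσ hc in
theorem Qw_known [Finite α] [Finite K] : Kn (Qw r n σ) := by
  have := Fintype.ofFinite α
  have h1 : Kn (Qc r n hK σ) :=
    Pr_known (fun x s q => known_elem (p := 2) (hp := ⟨Nat.prime_two⟩) (ph r) x s q) _ 0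
  have h2 : Kn (Sw r n hK σ) := by
    refine Eq.mp (congrArg Kn ?_) (quad_known r (fun a x => cc hK (n a) (n x))
      (fun a x => cc hK (n a) (σ (n x))))
    funext w
    exact sm_congr (fun u x => (cc_Q r n hσ hc u (n x)).symm) w
  refine Eq.mp (congrArg Kn ?_) (h1.comp₂ h2 fun x y => x.val * (vE y)⁻¹)
  funext w
  rw [Qc_eq, mul_inv_cancel_right]

end word

end Vale.Agent.P329.H697
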