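import Vale.Agent.P329.H697.Defs
import Vale.Agent.P329.H697.Word
import Mathlib.GroupTheory.IndexNormal
import Mathlib.Data.Nat.Factorization.Basic

/-! Groups with a subgroup of index two whose commutators are central of order dividing three. -/

namespace Vale.Agent.P329.H697

open Vale.Agent.P329 Vale.Agent.P329.S4

theorem ex_t {G : Type} [Group G] [Finite G] {N : Subgroup G} (hN : N.index = 2)
    (hc : ∀ x ∈ N, ∀ y ∈ N, (x * y * x⁻¹ * y⁻¹) ^ 3 = 1 ∧
      ∀ g : G, g * (x * y * x⁻¹ * y⁻¹) = x * y * x⁻¹ * y⁻¹ * g) :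
    ∃ t : G, t ∉ N ∧ ∀ x ∈ N, t * t * x = x * (t * t) := by
  obtain ⟨t0, h0⟩ : ∃ t0 : G, t0 ∉ N := by
    by_contra hcon
    push Not at hcon
    have : N = ⊤ := (Subgroup.eq_top_iff' N).2 hcon
    rw [this, Subgroup.index_top] at hN
    exact absurd hN (by norm_num)
  obtain ⟨k, m, hm, hkm⟩ := Nat.exists_eq_two_pow_mul_odd (n := orderOf t0)
    (orderOf_pos t0).ne'
  have hsq : ∀ g : G, g ^ 2 ∈ N := fun g => Subgroup.sq_mem_of_index_two hN g
  have ht : t0 ^ m ∉ N := by
    obtain ⟨j, rfl⟩ := hm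
    rw [pow_succ, Subgroup.mul_mem_iff_of_index_two hN]
    intro h
    exact h0 (h.1 (by rw [pow_mul]; exact N.pow_mem (hsq t0) j))
  refine ⟨t0 ^ m, ht, fun x hx => ?_⟩
  set t := t0 ^ m with htdef
  have htt : t * t ∈ N := by rw [← pow_two]; exact hsq t
  have hpow : t ^ (2 ^ k) = 1 := by
    rw [htdef, ← pow_mul, mul_comm, ← hkm, pow_orderOf_eq_one]
  set c := t * t * x * (t * t)⁻¹ * x⁻¹ with hcdef
  obtain ⟨hc3, hcc⟩ := hc _ htt x hx
  have h1 : t * t * x = c * x * (t * t) := by
    rw [hcdef]; group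
  have h2 : ∀ j : ℕ, (t * t) ^ j * x = c ^ j * x * (t * t) ^ j := by
    intro j
    induction j with
    | zero => simp
    | succ j ih =>
      rw [pow_succ' (t * t), mul_assoc, ih, pow_succ' c]
      have h3 : t * t * (c ^ j * x * (t * t) ^ j) = c ^ j * (t * t * x) * (t * t) ^ j := by
        have h4 : t * t * c ^ j = c ^ j * (t * t) :=
          (show Commute (t * t) c from hcc (t * t)).pow_right j
        rw [← mul_assoc, ← mul_assoc, h4]
        simp only [mul_assoc]
      rw [h3, h1]
      have h5 : c ^ j * c = c * c ^ j := (Commute.refl c).pow_left j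
      rw [show c ^ j * (c * x * (t * t)) * (t * t) ^ j = c ^ j * c * x * ((t * t) * (t * t) ^ j) by
        simp only [mul_assoc], h5]
  have h3 : c ^ (2 ^ k) = 1 := by
    have h4 := h2 (2 ^ k)
    have h5 : (t * t) ^ (2 ^ k) = 1 := by
      rw [← pow_two, ← pow_mul, mul_comm, pow_mul, hpow, one_pow]
    rw [h5, one_mul, mul_one] at h4
    exact (mul_eq_right.1 h4.symm)
  have h4 : c = 1 := by
    have h5 : orderOf c ∣ 2 ^ k := orderOf_dvd_of_pow_eq_one h3
    have h6 : orderOf c ∣ 3 := orderOf_dvd_of_pow_eq_one hc3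
    have h7 : Nat.Coprime (2 ^ k) 3 := Nat.Coprime.pow_left k (by norm_num)
    have h8 : orderOf c ∣ 1 := by
      rw [← h7]
      exact Nat.dvd_gcd h5 h6
    exact orderOf_eq_one_iff.1 (Nat.dvd_one.1 h8)
  rw [h1, h4, one_mul]

theorem two_three_known {α G : Type} [Finite α] [Group G] [Finite G] (hG : IndexTwoThree G)
    (f : α → G) : Kn fun w : List α => (w.map f).prod := by
  classical
  obtain ⟨N, hN, hc⟩ := hG
  obtain ⟨t, ht, htt⟩ := ex_t hN hc
  have hnor : N.Normal := Subgroup.normal_of_index_eq_two hN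
  have hK : ∀ x y : N, x * y * x⁻¹ * y⁻¹ ∈ E3 N := fun x y =>
    ⟨fun g => Subtype.ext ((hc x x.2 y y.2).2 g), Subtype.ext (hc x x.2 y y.2).1⟩
  set σ : N →* N := (MulAut.conjNormal t : N ≃* N).toMonoidHom with hσdef
  have hσv : ∀ y : N, ((σ y : N) : G) = t * y * t⁻¹ := fun y => MulAut.conjNormal_apply t y
  have hσ : ∀ y, σ (σ y) = y := by
    intro y
    apply Subtype.ext
    rw [hσv, hσv]
    have h := htt y y.2
    have h2 : t * (t * (y : G) * t⁻¹) * t⁻¹ = t * t * y * (t * t)⁻¹ := by group
    rw [h2, h, mul_inv_cancel_right]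
  have hcσ : ∀ x y : N, cc hK (σ x) (σ y) = cc hK x y := by
    intro x y
    apply vE_inj
    rw [vE_cc, vE_cc]
    apply Subtype.ext
    have h := (hc x x.2 y y.2).2 t
    push_cast
    rw [hσv, hσv]
    have h2 : t * (x : G) * t⁻¹ * (t * y * t⁻¹) * (t * x * t⁻¹)⁻¹ * (t * y * t⁻¹)⁻¹ =
        t * ((x : G) * (y : G) * (x : G)⁻¹ * (y : G)⁻¹) * t⁻¹ := by group
    rw [h2, h, mul_inv_cancel_right]
  let r : α → Bool := fun x => decide (f x ∉ N)
  have hmem : ∀ x, f x ∉ N → f x * t⁻¹ ∈ N := by
    intro x hx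
    rw [Subgroup.mul_mem_iff_of_index_two hN, Subgroup.inv_mem_iff]
    exact ⟨fun h => absurd h hx, fun h => absurd h ht⟩
  let n : α → N := fun x => if h : f x ∈ N then ⟨f x, h⟩ else ⟨f x * t⁻¹, hmem x h⟩
  let T : List α → Subgroup.zpowers t := fun w =>
    (w.map fun x => if r x = true then ⟨t, Subgroup.mem_zpowers t⟩ else 1).prod
  have hT : Kn T := by
    refine group_known Nat.prime_two ⊤ ?_ (fun _ _ => trivial) (fun _ => trivial) _
    rintro ⟨a, i, rfl⟩ _ ⟨b, j, rfl⟩ _
    exact Subtype.ext ((Commute.refl t).zpow_zpow i j)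
  have hQ : Kn (Qw r n σ) := Qw_known r n hσ hcσ
  have key : ∀ w : List α, (w.map f).prod = ((Qw r n σ w : N) : G) * (T w : G) ∧
      ∀ y : N, (T w : G) * y = ((ac2 σ (par r w) y : N) : G) * T w := by
    intro w
    induction w using List.reverseRecOn with
    | nil =>
      refine ⟨?_, fun y => ?_⟩
      · rw [Qw_nil]
        show (1 : G) = ((1 : N) : G) * ((1 : Subgroup.zpowers t) : G)
        simp
      · show ((1 : Subgroup.zpowers t) : G) * y = (y : G) * ((1 : Subgroup.zpowers t) : G)
        simp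
    | append_singleton w x ih =>
      obtain ⟨ih1, ih2⟩ := ih
      have hTs : T (w ++ [x]) = T w *
          (if r x = true then ⟨t, Subgroup.mem_zpowers t⟩ else 1) := by
        show (List.map _ (w ++ [x])).prod = _
        rw [List.map_append, List.prod_append, List.map_singleton, List.prod_singleton]
      by_cases hx : f x ∈ N
      · have hr : ¬ r x = true := by
          show ¬ decide (f x ∉ N) = true
          simpa using hx
        have hn : ((n x : N) : G) = f x := by
          show (((if h : f x ∈ N then ⟨f x, h⟩ else ⟨f x * t⁻¹, hmem x h⟩ : N)) : G) = f x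
          rw [dif_pos hx]
        rw [if_neg hr, mul_one] at hTs
        refine ⟨?_, fun y => ?_⟩
        · rw [List.map_append, List.prod_append, List.map_singleton, List.prod_singleton, ih1,
            hTs, Qw_snoc, Subgroup.coe_mul, mul_assoc, mul_assoc, ← ih2, hn]
        · rw [hTs, ih2, par_snoc, ph, if_neg hr, add_zero]
      · have hr : r x = true := by
          show decide (f x ∉ N) = true
          simpa using hx
        have hn : ((n x : N) : G) = f x * t⁻¹ := by
          show (((if h : f x ∈ N then ⟨f x, h⟩ else ⟨f x * t⁻¹, hmem x h⟩ : N)) : G) = _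
          rw [dif_neg hx]
        rw [if_pos hr] at hTs
        have hTs' : ((T (w ++ [x]) : Subgroup.zpowers t) : G) = (T w : G) * t := by
          rw [hTs]; rfl
        refine ⟨?_, fun y => ?_⟩
        · rw [List.map_append, List.prod_append, List.map_singleton, List.prod_singleton, ih1,
            hTs', Qw_snoc, Subgroup.coe_mul, mul_assoc, mul_assoc]
          congr 1
          rw [← mul_assoc _ _ t, ← ih2, hn, mul_assoc, mul_assoc, inv_mul_cancel, mul_one]
        · rw [hTs', par_snoc, ph, if_pos hr, mul_assoc, ac2_add hσ]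
          have h1 : ac2 σ 1 y = σ y := if_neg (by decide)
          rw [h1, ← mul_assoc, ← mul_assoc, ← ih2, hσv]
          group
  refine Eq.mp (congrArg Kn ?_) (hQ.comp₂ hT fun x y => ((x : N) : G) * (y : G))
  funext w
  exact (key w).1.symm

end Vale.Agent.P329.H697
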