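import Vale.Agent.P329.H697.Core2
import Vale.Agent.P329.H697.Word

/-! Values of words in groups with a subgroup of index two of class two whose commutators have
order dividing three. -/

namespace Vale.Agent.P329.H697

open Vale.Agent.P329 Vale.Agent.P329.S4

section mods

variable {α B : Type} [Finite α] [AddCommGroup B] [Module (ZMod 3) B] [Finite B]

/-- parity of the prefix as an element of `ZMod 2` -/
def b2 (p : Bool) : ZMod 2 := if p = true then 1 else 0

omit [Finite α] in
theorem par_pb (r : α → Bool) (u : List α) : par r u = b2 (pb r u) := by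
  induction u using List.reverseRecOn with
  | nil => rfl
  | append_singleton u x ih =>
    rw [par_snoc, ih, pb_snoc, ph]
    generalize pb r u = p
    generalize r x = q
    revert p q
    decide

theorem quad2_known [Fintype α] (r : α → Bool) (g : Bool → α → Bool → α → B) :
    Kn (sm fun u x => ∑ a, ∑ p : Bool, cl r p a u • g p a (pb r u) x) := by
  have h1 : Kn fun w => ∑ b, ∑ a, ∑ p : Bool, ∑ q : Bool, at_ b (fun u =>
      ((if pb r u = q then (1 : ZMod 3) else 0) * cl r p a u) • g p a q b) w :=
    Kn.fsum fun b => Kn.fsum fun a => Kn.fsum fun p => Kn.fsum fun q =>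
      smul_known (P_known r p q a b) _
  refine Eq.mp (congrArg Kn ?_) h1
  funext w
  rw [sm_eq_at]
  refine Finset.sum_congr rfl fun b _ => ?_
  rw [at_sum]
  refine Finset.sum_congr rfl fun a _ => ?_
  rw [at_sum]
  refine Finset.sum_congr rfl fun p _ => ?_
  rw [← at_sum]
  refine at_congr (fun u => ?_) w
  rw [Fintype.sum_bool]
  rcases pb r u with _ | _
  · rw [if_neg (by decide), if_pos rfl, zero_mul, one_mul, zero_smul, zero_add]
  · rw [if_pos rfl, if_neg (by decide), zero_mul, one_mul, zero_smul, add_zero]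

end mods

section word

variable {K : Type} [Group K] {hK : ∀ x y : K, x * y * x⁻¹ * y⁻¹ ∈ E3 K} {α : Type}
  (r : α → Bool) (c : ZMod 2 → α → K)

open Classical in
theorem cl_snoc (p : Bool) (a : α) (u : List α) (x : α) : cl r p a (u ++ [x]) =
    cl r p a u + if x = a then (if pb r u = p then (1 : ZMod 3) else 0) else 0 :=
  at_snoc _ _ _ _

/-- product of the values along the parity automaton -/
def Qg (u : List α) : K := Pr (addq (ph r)) c 0 u

theorem Qg_nil : Qg r c [] = 1 := rfl
theorem Qg_snoc (u : List α) (x : α) :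
    Qg r c (u ++ [x]) = Qg r c u * c (par r u) x := Pr_snoc _ _ _ _ _

theorem cc_Qg [Fintype α] (u : List α) (y : K) :
    cc hK (Qg r c u) y = ∑ a, ∑ p : Bool, cl r p a u • cc hK (c (b2 p) a) y := by
  classical
  induction u using List.reverseRecOn with
  | nil =>
    rw [Qg_nil, cc_one_left]
    symm
    apply Finset.sum_eq_zero
    intro a _
    apply Finset.sum_eq_zero
    intro p _
    rw [cl, at_nil, zero_smul]
  | append_singleton u x ih =>
    rw [Qg_snoc, cc_mul_left, ih]
    have h2 : cc hK (c (par r u) x) y = ∑ a, ∑ p : Bool,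
        (if x = a then (if pb r u = p then (1 : ZMod 3) else 0) else 0) •
          cc hK (c (b2 p) a) y := by
      rw [Finset.sum_eq_single x]
      · rw [Finset.sum_eq_single (pb r u)]
        · rw [if_pos rfl, if_pos rfl, one_smul, par_pb]
        · intro p _ hp
          rw [if_pos rfl, if_neg (Ne.symm hp), zero_smul]
        · intro h; exact absurd (Finset.mem_univ _) h
      · intro a _ ha
        apply Finset.sum_eq_zero
        intro p _
        rw [if_neg (Ne.symm ha), zero_smul]
      · intro h; exact absurd (Finset.mem_univ _) h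
    rw [h2, ← Finset.sum_add_distrib]
    refine Finset.sum_congr rfl fun a _ => ?_
    rw [← Finset.sum_add_distrib]
    refine Finset.sum_congr rfl fun p _ => ?_
    rw [cl_snoc, add_smul]

/-- the commutative product -/
def Qb (hK : ∀ x y : K, x * y * x⁻¹ * y⁻¹ ∈ E3 K) (u : List α) : Ba hK :=
  Pr (addq (ph r)) (fun p x => (⟨c p x⟩ : Ba hK)) 0 u

/-- the sum of commutators -/
noncomputable def Sg (hK : ∀ x y : K, x * y * x⁻¹ * y⁻¹ ∈ E3 K) (w : List α) :
    Additive (E3 K) := sm (fun u x => cc hK (Qg r c u) (c (par r u) x)) w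

theorem Qb_eq (w : List α) : (Qb r c hK w).val = Qg r c w * vE (Sg r c hK w) := by
  induction w using List.reverseRecOn with
  | nil =>
    rw [Qg_nil, Sg, sm_nil, vE_zero, mul_one]; rfl
  | append_singleton w x ih =>
    have h1 : Qb r c hK (w ++ [x]) = Qb r c hK w * ⟨c (par r w) x⟩ :=
      Pr_snoc _ _ _ _ _
    have h2 : Sg r c hK (w ++ [x]) = Sg r c hK w +
        cc hK (Qg r c w) (c (par r w) x) := sm_snoc _ _ _
    rw [h1, ba_mul, ih, Qg_snoc, h2]
    show Qg r c w * vE (Sg r c hK w) * c (par r w) x *
      vE (cc hK (Qg r c w * vE (Sg r c hK w)) (c (par r w) x)) = _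
    rw [cc_mul_left, cc_vE, add_zero, vE_add, mul_assoc (Qg r c w) (vE _), ← vE_cen]
    simp only [mul_assoc]

theorem Qg_known [Finite α] [Finite K] (hK : ∀ x y : K, x * y * x⁻¹ * y⁻¹ ∈ E3 K) :
    Kn (Qg r c) := by
  have := Fintype.ofFinite α
  have h1 : Kn (Qb r c hK) :=
    Pr_known (fun x s q => known_elem (p := 2) (hp := ⟨Nat.prime_two⟩) (ph r) x s q) _ 0
  have h2 : Kn (Sg r c hK) := by
    refine Eq.mp (congrArg Kn ?_) (quad2_known r (fun p a q x =>
      cc hK (c (b2 p) a) (c (b2 q) x)))
    funext w
    refine sm_congr (fun u x => ?_) w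
    rw [cc_Qg, par_pb]
  refine Eq.mp (congrArg Kn ?_) (h1.comp₂ h2 fun x y => x.val * (vE y)⁻¹)
  funext w
  rw [Qb_eq, mul_inv_cancel_right]

end word

end Vale.Agent.P329.H697
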