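import Vale.Agent.P329.H697.Defs2
import Vale.Agent.P329.H697.Word2
import Mathlib.GroupTheory.IndexNormal

/-! Groups with a subgroup of index two of class two whose commutators have order dividing
three. -/

namespace Vale.Agent.P329.H697

open Vale.Agent.P329 Vale.Agent.P329.S4

theorem class_two_known {α G : Type} [Finite α] [Group G] [Finite G] (hG : ClassTwoByTwo G)
    (f : α → G) : Kn fun w : List α => (w.map f).prod := by
  classical
  obtain ⟨N, hN, hc⟩ := hG
  obtain ⟨t, ht⟩ : ∃ t : G, t ∉ N := by
    by_contra hcon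
    push Not at hcon
    have : N = ⊤ := (Subgroup.eq_top_iff' N).2 hcon
    rw [this, Subgroup.index_top] at hN
    exact absurd hN (by norm_num)
  have hK : ∀ x y : N, x * y * x⁻¹ * y⁻¹ ∈ E3 N := fun x y =>
    ⟨fun g => Subtype.ext ((hc x x.2 y y.2).2 g g.2), Subtype.ext (hc x x.2 y y.2).1⟩
  let r : α → Bool := fun x => decide (f x ∉ N)
  let s : ZMod 2 → G := fun p => if p = 0 then 1 else t
  have hs : ∀ p, s p ∈ N ↔ p = 0 := by
    intro p
    by_cases hp : p = 0
    · simp only [s, if_pos hp]; exact ⟨fun _ => hp, fun _ => N.one_mem⟩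
    · simp only [s, if_neg hp]; exact ⟨fun h => absurd h ht, fun h => absurd h hp⟩
  have hph : ∀ x, ph r x = 0 ↔ f x ∈ N := by
    intro x
    by_cases hx : f x ∈ N
    · have hr : ¬ r x = true := by
        show ¬ decide (f x ∉ N) = true
        simpa using hx
      rw [ph, if_neg hr]
      exact ⟨fun _ => hx, fun _ => rfl⟩
    · have hr : r x = true := by
        show decide (f x ∉ N) = true
        simpa using hx
      rw [ph, if_pos hr]
      exact ⟨fun h => absurd h (by decide), fun h => absurd h hx⟩
  have h2 : ∀ p q : ZMod 2, p + q = 0 ↔ (p = 0 ↔ q = 0) := by decide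
  have hmem : ∀ (p : ZMod 2) (x : α), s p * f x * (s (p + ph r x))⁻¹ ∈ N := by
    intro p x
    rw [Subgroup.mul_mem_iff_of_index_two hN, Subgroup.mul_mem_iff_of_index_two hN,
      Subgroup.inv_mem_iff, hs, hs, h2, hph]
  let c : ZMod 2 → α → N := fun p x => ⟨s p * f x * (s (p + ph r x))⁻¹, hmem p x⟩
  have hQ : Kn (Qg r c) := Qg_known r c hK
  have key : ∀ w : List α, (w.map f).prod = ((Qg r c w : N) : G) * s (b2 (pb r w)) := by
    intro w
    rw [← par_pb]
    induction w using List.reverseRecOn with
    | nil =>
      rw [Qg_nil]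
      show (1 : G) = ((1 : N) : G) * s 0
      simp [s]
    | append_singleton w x ih =>
      rw [List.map_append, List.prod_append, List.map_singleton, List.prod_singleton, ih,
        Qg_snoc, par_snoc, Subgroup.coe_mul]
      show _ = ((Qg r c w : N) : G) * (s (par r w) * f x * (s (par r w + ph r x))⁻¹) *
        s (par r w + ph r x)
      group
  refine Eq.mp (congrArg Kn ?_) (hQ.comp₂ (pb_known r) fun x y => ((x : N) : G) * s (b2 y))
  funext w
  exact (key w).symm

end Vale.Agent.P329.H697
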