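import Vale.Agent.P329.H697.Defs
import Vale.Agent.P329.H112.Cls
import Mathlib.Data.ZMod.Basic
import Mathlib.Algebra.Group.MinimalAxioms
import Mathlib.Tactic.LinearCombination

/-! A group of order 54 with a subgroup of index two whose commutators are central of order
dividing three, which does not divide a product of the groups treated before. -/

namespace Vale.Agent.P329.H697

open Vale.Agent.P329 Vale.Agent.P329.H112

/-- iterated commutator -/
def itc {G : Type} [Group G] (t v : G) : ℕ → G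
  | 0 => v
  | n + 1 => itc t v n * t * (itc t v n)⁻¹ * t⁻¹

/-- a law, for all large `n` -/
def Law (G : Type) [Group G] : Prop := ∃ n0 : ℕ, ∀ n, n0 ≤ n → ∀ t v w : G,
  (itc t v n * itc t w n * (itc t v n)⁻¹ * (itc t w n)⁻¹) ^ (2 ^ n) = 1

theorem itc_map {G H : Type} [Group G] [Group H] (φ : G →* H) (t v : G) (n : ℕ) :
    φ (itc t v n) = itc (φ t) (φ v) n := by
  induction n with
  | zero => rfl
  | succ n ih => simp only [itc, map_mul, map_inv, ih]

theorem Law.surj {G H : Type} [Group G] [Group H] (h : Law G) (φ : G →* H)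
    (hφ : Function.Surjective φ) : Law H := by
  obtain ⟨n0, h⟩ := h
  refine ⟨n0, fun n hn t v w => ?_⟩
  obtain ⟨t, rfl⟩ := hφ t
  obtain ⟨v, rfl⟩ := hφ v
  obtain ⟨w, rfl⟩ := hφ w
  have h1 := congrArg φ (h n hn t v w)
  simpa only [map_mul, map_inv, map_pow, itc_map, map_one] using h1

theorem Law.inj {G H : Type} [Group G] [Group H] (h : Law H) (φ : G →* H)
    (hφ : Function.Injective φ) : Law G := by
  obtain ⟨n0, h⟩ := h
  refine ⟨n0, fun n hn t v w => hφ ?_⟩
  simpa only [map_mul, map_inv, map_pow, itc_map, map_one] using h n hn (φ t) (φ v) (φ w)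

theorem Law.pi {ι : Type} [Finite ι] {H : ι → Type} [∀ i, Group (H i)] (h : ∀ i, Law (H i)) :
    Law (∀ i, H i) := by
  choose n0 h using h
  have := Fintype.ofFinite ι
  refine ⟨Finset.univ.sup n0, fun n hn t v w => ?_⟩
  funext i
  have h1 := h i n ((Finset.le_sup (Finset.mem_univ i)).trans hn) (t i) (v i) (w i)
  have h2 : ∀ x : ∀ i, H i, (itc t x n) i = itc (t i) (x i) n := fun x =>
    itc_map (Pi.evalMonoidHom H i) t x n
  simpa only [Pi.mul_apply, Pi.inv_apply, Pi.pow_apply, h2, Pi.one_apply] using h1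

theorem Law.nilp {G : Type} [Group G] (h : Group.IsNilpotent G) : Law G := by
  obtain ⟨n0, hn0⟩ := (Subgroup.nilpotent_iff_lowerCentralSeries).1 h
  have h1 : ∀ (t v : G) n, itc t v n ∈ Subgroup.lowerCentralSeries (⊤ : Subgroup G) n := by
    intro t v n
    induction n with
    | zero => trivial
    | succ n ih => exact Subgroup.commutator_mem_commutator ih (Subgroup.mem_top t)
  refine ⟨n0, fun n hn t v w => ?_⟩
  have h2 := Subgroup.lowerCentralSeries_antitone (⊤ : Subgroup G) hn (h1 t v n)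
  rw [hn0, Subgroup.mem_bot] at h2
  rw [h2, one_mul, inv_one, mul_one, mul_inv_cancel, one_pow]

theorem Law.abel {G : Type} [Group G] (h : AbelianByElementary G) : Law G := by
  obtain ⟨p, hp, A, hA, hc, -⟩ := h
  refine ⟨1, fun n hn t v w => ?_⟩
  obtain ⟨k, rfl⟩ : ∃ k, n = k + 1 := ⟨n - 1, by omega⟩
  have h1 : ∀ x : G, itc t x (k + 1) ∈ A := fun x => hc _ _
  rw [hA _ (h1 v) _ (h1 w), mul_inv_cancel_right, mul_inv_cancel, one_pow]

theorem s3_sign (a b : Equiv.Perm (Fin 3)) : Equiv.Perm.sign (a * b * a⁻¹ * b⁻¹) = 1 := by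
  rw [map_mul, map_mul, map_mul, map_inv, map_inv, mul_right_comm (Equiv.Perm.sign a),
    mul_inv_cancel, one_mul, mul_inv_cancel]

theorem s3_alt : ∀ x y : Equiv.Perm (Fin 3), Equiv.Perm.sign x = 1 → Equiv.Perm.sign y = 1 →
    x * y * x⁻¹ * y⁻¹ = 1 := by decide +kernel

theorem Law.two {G : Type} [Group G] (h : ElementaryTwoByS3 G) : Law G := by
  obtain ⟨q, hq⟩ := h
  refine ⟨1, fun n hn t v w => ?_⟩
  obtain ⟨k, rfl⟩ : ∃ k, n = k + 1 := ⟨n - 1, by omega⟩
  have h1 := hq (itc t v (k + 1) * itc t w (k + 1) * (itc t v (k + 1))⁻¹ *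
    (itc t w (k + 1))⁻¹) (by
      simp only [itc, map_mul, map_inv]
      exact s3_alt _ _ (s3_sign _ _) (s3_sign _ _))
  rw [pow_succ', pow_mul, pow_two, h1, one_pow]

theorem law_divides {G : Type} [Group G] (h : DividesProduct G) : Law G := by
  obtain ⟨ι, hι, H, hg, hH, D, π, hπ⟩ := h
  have h1 : Law (∀ i, H i) := Law.pi fun i => by
    rcases (hH i).2 with h | h | h
    · exact Law.nilp h
    · exact Law.two h
    · exact Law.abel h
  exact (h1.inj D.subtype D.subtype_injective).surj π hπ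

/-- a group of order 54 -/
@[ext] structure G54 where
  /-- first coordinate -/
  a : ZMod 3
  /-- second coordinate -/
  b : ZMod 3
  /-- third coordinate -/
  c : ZMod 3
  /-- sign -/
  e : Bool

/-- sign -/
def sg (e : Bool) : ZMod 3 := if e then -1 else 1

theorem sg_xor : ∀ e e' : Bool, sg (xor e e') = sg e * sg e' := by decide
theorem sg_sq : ∀ e : Bool, sg e * sg e = 1 := by decide

instance : Mul G54 := ⟨fun x y => ⟨x.a + sg x.e * y.a, x.b + sg x.e * y.b,
  x.c + y.c + x.a * (sg x.e * y.b), xor x.e y.e⟩⟩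
instance : One G54 := ⟨⟨0, 0, 0, false⟩⟩
instance : Inv G54 := ⟨fun x => ⟨-(sg x.e * x.a), -(sg x.e * x.b), -x.c + x.a * x.b, x.e⟩⟩

theorem g_mul (x y : G54) : x * y = ⟨x.a + sg x.e * y.a, x.b + sg x.e * y.b,
  x.c + y.c + x.a * (sg x.e * y.b), xor x.e y.e⟩ := rfl
theorem g_one : (1 : G54) = ⟨0, 0, 0, false⟩ := rfl
theorem g_inv (x : G54) : x⁻¹ = ⟨-(sg x.e * x.a), -(sg x.e * x.b), -x.c + x.a * x.b, x.e⟩ := rfl

instance g54 : Group G54 := by
  refine Group.ofLeftAxioms ?_ ?_ ?_
  · intro x y z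
    have h := sg_sq x.e
    ext
    · simp only [g_mul, sg_xor]; ring
    · simp only [g_mul, sg_xor]; ring
    · simp only [g_mul, sg_xor]
      linear_combination (y.a * sg y.e * z.b) * h
    · simp only [g_mul]; exact Bool.xor_assoc _ _ _
  · intro x
    have h : sg false = 1 := rfl
    ext
    · simp only [g_mul, g_one, h]; ring
    · simp only [g_mul, g_one, h]; ring
    · simp only [g_mul, g_one, h]; ring
    · simp only [g_mul, g_one]; exact Bool.false_xor _
  · intro x
    have h := sg_sq x.e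
    ext
    · simp only [g_mul, g_one, g_inv]; ring
    · simp only [g_mul, g_one, g_inv]; ring
    · simp only [g_mul, g_one, g_inv]
      linear_combination (-x.a * x.b) * h
    · simp only [g_mul, g_one, g_inv]; exact Bool.xor_self _

/-- coordinates -/
def g54e : G54 ≃ ZMod 3 × ZMod 3 × ZMod 3 × Bool where
  toFun x := (x.a, x.b, x.c, x.e)
  invFun y := ⟨y.1, y.2.1, y.2.2.1, y.2.2.2⟩
  left_inv _ := rfl
  right_inv _ := rfl

instance : Finite G54 := Finite.of_equiv _ g54e.symm

theorem g54_card : Nat.card G54 = 54 := by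
  rw [Nat.card_congr g54e, Nat.card_prod, Nat.card_prod, Nat.card_prod, Nat.card_zmod,
    Nat.card_eq_fintype_card, Fintype.card_bool]

/-- the subgroup of index two -/
def N54 : Subgroup G54 where
  carrier := {x | x.e = false}
  mul_mem' := by
    intro x y hx hy
    show xor x.e y.e = false
    rw [show x.e = false from hx, show y.e = false from hy]; rfl
  one_mem' := rfl
  inv_mem' := fun {x} hx => hx

theorem comm54 {x y : G54} (hx : x.e = false) (hy : y.e = false) :
    x * y * x⁻¹ * y⁻¹ = ⟨0, 0, x.a * y.b - y.a * x.b, false⟩ := by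
  obtain ⟨a, b, c, e⟩ := x
  obtain ⟨a', b', c', e'⟩ := y
  obtain rfl : e = false := hx
  obtain rfl : e' = false := hy
  have h : sg false = 1 := rfl
  ext
  · simp only [g_mul, g_inv, Bool.xor_false, h]; ring
  · simp only [g_mul, g_inv, Bool.xor_false, h]; ring
  · simp only [g_mul, g_inv, Bool.xor_false, h]; ring
  · rfl

theorem g54_two_three : IndexTwoThree G54 := by
  refine ⟨N54, ?_, ?_⟩
  · rw [Subgroup.index_eq_two_iff]
    refine ⟨⟨0, 0, 0, true⟩, fun b => ?_⟩
    have h1 : b * ⟨0, 0, 0, true⟩ ∈ N54 ↔ xor b.e true = false := Iff.rfl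
    have h2 : b ∈ N54 ↔ b.e = false := Iff.rfl
    rw [h1, h2]
    rcases b.e <;> simp [Xor]
  · intro x hx y hy
    rw [comm54 hx hy]
    refine ⟨?_, fun g => ?_⟩
    · have h : sg false = 1 := rfl
      have h3 : ∀ z : ZMod 3, z + z + z = 0 := by decide
      rw [pow_succ, pow_two]
      ext
      · simp only [g_mul, g_one]; ring
      · simp only [g_mul, g_one]; ring
      · simp only [g_mul, g_one]
        linear_combination h3 (x.a * y.b - y.a * x.b)
      · rfl
    · have h : sg false = 1 := rfl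
      ext
      · simp only [g_mul]; rw [h]; ring
      · simp only [g_mul]; rw [h]; ring
      · simp only [g_mul]; ring
      · simp only [g_mul]; rw [Bool.xor_false, Bool.false_xor]

theorem itc54 (x y : ZMod 3) (hxy : x * y = 0) (n : ℕ) :
    itc (⟨0, 0, 0, true⟩ : G54) ⟨x, y, 0, false⟩ n = ⟨(-1) ^ n * x, (-1) ^ n * y, 0, false⟩ := by
  induction n with
  | zero => rw [itc, pow_zero, one_mul, one_mul]
  | succ n ih =>
    rw [itc, ih]
    have h : sg false = 1 := rfl
    have h' : sg true = -1 := rfl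
    have h3 : (3 : ZMod 3) = 0 := by decide
    ext
    · simp only [g_mul, g_inv, h, h', Bool.false_xor, Bool.xor_false]
      linear_combination ((-1) ^ n * x) * h3
    · simp only [g_mul, g_inv, h, h', Bool.false_xor, Bool.xor_false]
      linear_combination ((-1) ^ n * y) * h3
    · simp only [g_mul, g_inv, h, h', Bool.false_xor, Bool.xor_false]
      linear_combination (2 * ((-1) ^ n * (-1) ^ n)) * hxy
    · rfl

theorem pow54 (z : ZMod 3) (n : ℕ) : (⟨0, 0, z, false⟩ : G54) ^ n = ⟨0, 0, n * z, false⟩ := by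
  induction n with
  | zero => rw [pow_zero, Nat.cast_zero, zero_mul]; rfl
  | succ n ih =>
    rw [pow_succ, ih]
    ext
    · simp only [g_mul]; ring
    · simp only [g_mul]; ring
    · simp only [g_mul]; push_cast; ring
    · rfl

theorem g54_new : ¬ DividesProduct G54 := by
  intro h
  obtain ⟨n, hn⟩ := law_divides h
  have h1 := hn n le_rfl ⟨0, 0, 0, true⟩ ⟨1, 0, 0, false⟩ ⟨0, 1, 0, false⟩
  rw [itc54 1 0 (by decide), itc54 0 1 (by decide), comm54 rfl rfl, pow54] at h1
  have h2 := congrArg G54.c h1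
  have h3 : ((2 ^ n : ℕ) : ZMod 3) * ((-1) ^ n * 1 * ((-1) ^ n * 1) - (-1) ^ n * 0 *
    ((-1) ^ n * 0)) = 0 := h2
  have h4 : ((2 ^ n : ℕ) : ZMod 3) = (-1) ^ n := by
    rw [Nat.cast_pow]
    congr 1
  rw [h4] at h3
  have h5 : ((-1 : ZMod 3)) ^ n * ((-1) ^ n * 1 * ((-1) ^ n * 1) - (-1) ^ n * 0 *
    ((-1) ^ n * 0)) = (-1) ^ n * ((-1) ^ n * (-1) ^ n) := by ring
  rw [h5, ← mul_pow, show (-1 : ZMod 3) * -1 = 1 by decide, one_pow, mul_one] at h3
  rcases neg_one_pow_eq_or (ZMod 3) n with h6 | h6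
  · rw [h6] at h3; exact absurd h3 (by decide)
  · rw [h6] at h3; exact absurd h3 (by decide)

end Vale.Agent.P329.H697
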