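import Vale.Agent.P329.H697.Defs2
import Vale.Agent.P329.H697.New

/-! The group of order 54 belongs to the larger class. -/

namespace Vale.Agent.P329.H697

theorem IndexTwoThree.class_two {G : Type} [Group G] (h : IndexTwoThree G) :
    ClassTwoByTwo G := by
  obtain ⟨N, hN, hc⟩ := h
  exact ⟨N, hN, fun x hx y hy => ⟨(hc x hx y hy).1, fun z _ => (hc x hx y hy).2 z⟩⟩

theorem g54_class_two : ClassTwoByTwo G54 := g54_two_three.class_two

end Vale.Agent.P329.H697
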