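import Vale.Agent.P329.H697.Defs2
import Vale.Agent.P329.H697.Defs3
import Vale.Agent.P329.H697.New
import Mathlib.Data.ZMod.Basic
import Mathlib.FieldTheory.Finite.Basic

/-! Groups of order `2 * p ^ 3`. -/

namespace Vale.Agent.P329.H697

open Vale.Agent.P329 Vale.Agent.P329.H112

/-- a law, for all large `n` -/
def Law3 (G : Type) [Group G] : Prop := ∃ n0 : ℕ, ∀ n, n0 ≤ n → ∀ t v w : G,
  (itc t v n * itc t w n * (itc t v n)⁻¹ * (itc t w n)⁻¹) ^ (2 ^ n * 3) = 1

theorem Law.law3 {G : Type} [Group G] (h : Law G) : Law3 G := by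
  obtain ⟨n0, h⟩ := h
  refine ⟨n0, fun n hn t v w => ?_⟩
  rw [pow_mul, h n hn, one_pow]

theorem Law3.surj {G H : Type} [Group G] [Group H] (h : Law3 G) (φ : G →* H)
    (hφ : Function.Surjective φ) : Law3 H := by
  obtain ⟨n0, h⟩ := h
  refine ⟨n0, fun n hn t v w => ?_⟩
  obtain ⟨t, rfl⟩ := hφ t
  obtain ⟨v, rfl⟩ := hφ v
  obtain ⟨w, rfl⟩ := hφ w
  have h1 := congrArg φ (h n hn t v w)
  simpa only [map_mul, map_inv, map_pow, itc_map, map_one] using h1

theorem Law3.inj {G H : Type} [Group G] [Group H] (h : Law3 H) (φ : G →* H)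
    (hφ : Function.Injective φ) : Law3 G := by
  obtain ⟨n0, h⟩ := h
  refine ⟨n0, fun n hn t v w => hφ ?_⟩
  simpa only [map_mul, map_inv, map_pow, itc_map, map_one] using h n hn (φ t) (φ v) (φ w)

theorem Law3.pi {ι : Type} [Finite ι] {H : ι → Type} [∀ i, Group (H i)] (h : ∀ i, Law3 (H i)) :
    Law3 (∀ i, H i) := by
  choose n0 h using h
  have := Fintype.ofFinite ι
  refine ⟨Finset.univ.sup n0, fun n hn t v w => ?_⟩
  funext i
  have h1 := h i n ((Finset.le_sup (Finset.mem_univ i)).trans hn) (t i) (v i) (w i)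
  have h2 : ∀ x : ∀ i, H i, (itc t x n) i = itc (t i) (x i) n := fun x =>
    itc_map (Pi.evalMonoidHom H i) t x n
  simpa only [Pi.mul_apply, Pi.inv_apply, Pi.pow_apply, h2, Pi.one_apply] using h1

theorem Law3.two {G : Type} [Group G] (h : ClassTwoByTwo G) : Law3 G := by
  obtain ⟨N, hN, hc⟩ := h
  have hcomm : ∀ a b : G, a * b * a⁻¹ * b⁻¹ ∈ N := by
    intro a b
    rw [Subgroup.mul_mem_iff_of_index_two hN, Subgroup.mul_mem_iff_of_index_two hN,
      Subgroup.mul_mem_iff_of_index_two hN, Subgroup.inv_mem_iff, Subgroup.inv_mem_iff]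
    tauto
  refine ⟨1, fun n hn t v w => ?_⟩
  obtain ⟨k, rfl⟩ : ∃ k, n = k + 1 := ⟨n - 1, by omega⟩
  rw [mul_comm (2 ^ (k + 1)) 3, pow_mul]
  have h1 := (hc (itc t v (k + 1)) (hcomm _ _) (itc t w (k + 1)) (hcomm _ _)).1
  rw [h1, one_pow]

/-- a group of order `2 * p ^ 3` -/
@[ext] structure Gp (p : ℕ) where
  /-- first coordinate -/
  a : ZMod p
  /-- second coordinate -/
  b : ZMod p
  /-- third coordinate -/
  c : ZMod p
  /-- sign -/
  e : Bool

namespace Gp

variable {p : ℕ}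

/-- sign -/
def sg (p : ℕ) (e : Bool) : ZMod p := if e then -1 else 1

theorem sg_xor (e e' : Bool) : sg p (xor e e') = sg p e * sg p e' := by
  cases e <;> cases e' <;> simp [sg]
theorem sg_sq (e : Bool) : sg p e * sg p e = 1 := by
  cases e <;> simp [sg]

instance : Mul (Gp p) := ⟨fun x y => ⟨x.a + sg p x.e * y.a, x.b + sg p x.e * y.b,
  x.c + y.c + x.a * (sg p x.e * y.b), xor x.e y.e⟩⟩
instance : One (Gp p) := ⟨⟨0, 0, 0, false⟩⟩
instance : Inv (Gp p) :=
  ⟨fun x => ⟨-(sg p x.e * x.a), -(sg p x.e * x.b), -x.c + x.a * x.b, x.e⟩⟩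

theorem g_mul (x y : Gp p) : x * y = ⟨x.a + sg p x.e * y.a, x.b + sg p x.e * y.b,
  x.c + y.c + x.a * (sg p x.e * y.b), xor x.e y.e⟩ := rfl
theorem g_one : (1 : Gp p) = ⟨0, 0, 0, false⟩ := rfl
theorem g_inv (x : Gp p) :
    x⁻¹ = ⟨-(sg p x.e * x.a), -(sg p x.e * x.b), -x.c + x.a * x.b, x.e⟩ := rfl

instance grp : Group (Gp p) := by
  refine Group.ofLeftAxioms ?_ ?_ ?_
  · intro x y z
    have h := sg_sq (p := p) x.e
    ext
    · simp only [g_mul, sg_xor]; ring
    · simp only [g_mul, sg_xor]; ring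
    · simp only [g_mul, sg_xor]
      linear_combination (y.a * sg p y.e * z.b) * h
    · simp only [g_mul]; exact Bool.xor_assoc _ _ _
  · intro x
    have h : sg p false = 1 := rfl
    ext
    · simp only [g_mul, g_one, h]; ring
    · simp only [g_mul, g_one, h]; ring
    · simp only [g_mul, g_one, h]; ring
    · simp only [g_mul, g_one]; exact Bool.false_xor _
  · intro x
    have h := sg_sq (p := p) x.e
    ext
    · simp only [g_mul, g_one, g_inv]; ring
    · simp only [g_mul, g_one, g_inv]; ring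
    · simp only [g_mul, g_one, g_inv]
      linear_combination (-x.a * x.b) * h
    · simp only [g_mul, g_one, g_inv]; exact Bool.xor_self _

/-- coordinates -/
def eqv : Gp p ≃ ZMod p × ZMod p × ZMod p × Bool where
  toFun x := (x.a, x.b, x.c, x.e)
  invFun y := ⟨y.1, y.2.1, y.2.2.1, y.2.2.2⟩
  left_inv _ := rfl
  right_inv _ := rfl

theorem card : Nat.card (Gp p) = 2 * p ^ 3 := by
  rw [Nat.card_congr eqv, Nat.card_prod, Nat.card_prod, Nat.card_prod, Nat.card_zmod,
    Nat.card_eq_fintype_card, Fintype.card_bool]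
  ring

/-- the subgroup of index two -/
def Nn (p : ℕ) : Subgroup (Gp p) where
  carrier := {x | x.e = false}
  mul_mem' := by
    intro x y hx hy
    show xor x.e y.e = false
    rw [show x.e = false from hx, show y.e = false from hy]; rfl
  one_mem' := rfl
  inv_mem' := fun {x} hx => hx

theorem comm {x y : Gp p} (hx : x.e = false) (hy : y.e = false) :
    x * y * x⁻¹ * y⁻¹ = ⟨0, 0, x.a * y.b - y.a * x.b, false⟩ := by
  obtain ⟨a, b, c, e⟩ := x
  obtain ⟨a', b', c', e'⟩ := y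
  obtain rfl : e = false := hx
  obtain rfl : e' = false := hy
  have h : sg p false = 1 := rfl
  ext
  · simp only [g_mul, g_inv, Bool.xor_false, h]; ring
  · simp only [g_mul, g_inv, Bool.xor_false, h]; ring
  · simp only [g_mul, g_inv, Bool.xor_false, h]; ring
  · rfl

theorem central : CentralSquares (Gp p) := by
  refine ⟨Nn p, fun g => ?_, ?_⟩
  · show xor g.e g.e = false
    exact Bool.xor_self _
  · intro x hx y hy g
    rw [comm hx hy]
    have h : sg p false = 1 := rfl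
    ext
    · simp only [g_mul]; rw [h]; ring
    · simp only [g_mul]; rw [h]; ring
    · simp only [g_mul]; ring
    · simp only [g_mul]; rw [Bool.xor_false, Bool.false_xor]

theorem itcp (x y : ZMod p) (hxy : x * y = 0) (n : ℕ) :
    itc (⟨0, 0, 0, true⟩ : Gp p) ⟨x, y, 0, false⟩ n = ⟨2 ^ n * x, 2 ^ n * y, 0, false⟩ := by
  induction n with
  | zero => rw [itc, pow_zero, one_mul, one_mul]
  | succ n ih =>
    rw [itc, ih]
    have h : sg p false = 1 := rfl
    have h' : sg p true = -1 := rfl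
    ext
    · simp only [g_mul, g_inv, h, h', Bool.false_xor, Bool.xor_false]
      ring
    · simp only [g_mul, g_inv, h, h', Bool.false_xor, Bool.xor_false]
      ring
    · simp only [g_mul, g_inv, h, h', Bool.false_xor, Bool.xor_false]
      linear_combination (2 * (2 ^ n * 2 ^ n)) * hxy
    · rfl

theorem powp (z : ZMod p) (n : ℕ) : (⟨0, 0, z, false⟩ : Gp p) ^ n = ⟨0, 0, n * z, false⟩ := by
  induction n with
  | zero => rw [pow_zero, Nat.cast_zero, zero_mul]; rfl
  | succ n ih =>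
    rw [pow_succ, ih]
    ext
    · simp only [g_mul]; ring
    · simp only [g_mul]; ring
    · simp only [g_mul]; push_cast; ring
    · rfl

theorem not_law (hp : p.Prime) (h2 : p ≠ 2) (h3 : p ≠ 3) : ¬ Law3 (Gp p) := by
  rintro ⟨n, hn⟩
  have := Fact.mk hp
  have h1 := hn n le_rfl ⟨0, 0, 0, true⟩ ⟨1, 0, 0, false⟩ ⟨0, 1, 0, false⟩
  rw [itcp 1 0 (by simp), itcp 0 1 (by simp), comm rfl rfl, powp] at h1
  have h4 := congrArg Gp.c h1
  have h5 : ((2 ^ n * 3 : ℕ) : ZMod p) * (2 ^ n * 1 * (2 ^ n * 1) - 2 ^ n * 0 *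
    (2 ^ n * 0)) = 0 := h4
  have h6 : ((2 ^ n * 3 * (2 ^ n * 2 ^ n) : ℕ) : ZMod p) = 0 := by
    push_cast at h5 ⊢
    linear_combination h5
  rw [ZMod.natCast_eq_zero_iff] at h6
  have h7 : ∀ m, ¬ p ∣ 2 ^ m := by
    intro m hm
    exact h2 ((Nat.prime_dvd_prime_iff_eq hp Nat.prime_two).1 (hp.dvd_of_dvd_pow hm))
  rcases (hp.dvd_mul).1 h6 with h | h
  · rcases (hp.dvd_mul).1 h with h | h
    · exact h7 n h
    · exact h3 ((Nat.prime_dvd_prime_iff_eq hp Nat.prime_three).1 h)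
  · rcases (hp.dvd_mul).1 h with h | h
    · exact h7 n h
    · exact h7 n h

theorem not_dp (hp : p.Prime) (h2 : p ≠ 2) : ¬ DividesProduct (Gp p) := by
  intro h
  obtain ⟨n, hn⟩ := law_divides h
  have := Fact.mk hp
  have h1 := hn n le_rfl ⟨0, 0, 0, true⟩ ⟨1, 0, 0, false⟩ ⟨0, 1, 0, false⟩
  rw [itcp 1 0 (by simp), itcp 0 1 (by simp), comm rfl rfl, powp] at h1
  have h4 := congrArg Gp.c h1
  have h5 : ((2 ^ n : ℕ) : ZMod p) * (2 ^ n * 1 * (2 ^ n * 1) - 2 ^ n * 0 *
    (2 ^ n * 0)) = 0 := h4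
  have h6 : ((2 ^ n * (2 ^ n * 2 ^ n) : ℕ) : ZMod p) = 0 := by
    push_cast at h5 ⊢
    linear_combination h5
  rw [ZMod.natCast_eq_zero_iff] at h6
  have h7 : ∀ m, ¬ p ∣ 2 ^ m := by
    intro m hm
    exact h2 ((Nat.prime_dvd_prime_iff_eq hp Nat.prime_two).1 (hp.dvd_of_dvd_pow hm))
  rcases (hp.dvd_mul).1 h6 with h | h
  · exact h7 n h
  · rcases (hp.dvd_mul).1 h with h | h
    · exact h7 n h
    · exact h7 n h

/-- no divisor of a product of the groups treated before -/
theorem not_divides (hp : p.Prime) (h2 : p ≠ 2) (h3 : p ≠ 3) (ι : Type) [Finite ι]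
    (H : ι → Type) [∀ i, Group (H i)] (hH : ∀ i, DividesProduct (H i) ∨ ClassTwoByTwo (H i))
    (D : Subgroup (∀ i, H i)) (π : D →* Gp p) : ¬ Function.Surjective π := by
  intro hπ
  apply not_law hp h2 h3
  have h1 : Law3 (∀ i, H i) := Law3.pi fun i => by
    rcases hH i with h | h
    · exact (law_divides h).law3
    · exact Law3.two h
  exact (h1.inj D.subtype D.subtype_injective).surj π hπ

end Gp

end Vale.Agent.P329.H697
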