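import Vale.Agent.P329.H697.Tw3
import Vale.Agent.P329.H697.Defs5

/-!
# P329 / all letters in one coset of a normal subgroup of prime index
-/

set_option linter.all false

namespace Vale.Agent.P329.H697

open Vale.Agent.P329

theorem inN_known {α G : Type} [Finite α] [Group G] [Finite G] (N : Subgroup G)
    (hc : ∀ x ∈ N, ∀ y ∈ N, ∀ z ∈ N, z * (x * y * x⁻¹ * y⁻¹) = x * y * x⁻¹ * y⁻¹ * z)
    (f : α → G) (hf : ∀ x, f x ∈ N) : Kn fun w : List α => (w.map f).prod := by
  classical
  have hg : ((Subgroup.prod (⊤ : Subgroup N) (⊥ : Subgroup (Multiplicative (ZMod 2))))).index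
      = 2 := by
    rw [Subgroup.index_prod, Subgroup.index_top, Subgroup.index_bot, one_mul]
    simp
  have h1 := Tw.twist_all (G := N × Multiplicative (ZMod 2))
    (Subgroup.prod (⊤ : Subgroup N) (⊥ : Subgroup (Multiplicative (ZMod 2)))) ⊥ hg ?_
    inferInstance ?_ (fun x : α => ((⟨f x, hf x⟩ : N), Multiplicative.ofAdd (1 : ZMod 2))) ?_
  · refine Eq.mp (congrArg Kn ?_) (h1.comp fun p => (p.1 : G))
    funext w
    induction w with
    | nil => rfl
    | cons x w ih =>
      rw [List.map_cons, List.prod_cons, List.map_cons, List.prod_cons, Prod.fst_mul,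
        Subgroup.coe_mul, ih]
  · rintro ⟨x, x'⟩ hx ⟨y, y'⟩ hy ⟨z, z'⟩ hz
    refine Prod.ext ?_ (mul_comm _ _)
    exact Subtype.ext (hc x x.2 y y.2 z z.2)
  · rintro a ha b hb
    rw [Subgroup.mem_bot] at ha hb
    rw [ha, hb]
  · intro x
    left
    intro h
    have h2 := (Subgroup.mem_prod.1 h).2
    rw [Subgroup.mem_bot] at h2
    have h3 : Multiplicative.ofAdd (1 : ZMod 2) = 1 := h2
    exact absurd h3 (by decide)

theorem oneCoset_of
    (hodd : ∀ {α G : Type} [Finite α] [Group G] [Finite G] (N : Subgroup G) (q : ℕ) (g : G)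
      (f : α → G), q.Prime → q ≠ 2 → N.Normal → N.index = q → g ∉ N →
      (∀ x ∈ N, ∀ y ∈ N, ∀ z : G, z * (x * y * x⁻¹ * y⁻¹) = x * y * x⁻¹ * y⁻¹ * z) →
      (∀ x, g⁻¹ * f x ∈ N) → Kn fun w : List α => (w.map f).prod)
    {α G : Type} [Finite α] [Group G] [Finite G] (f : α → G) (h : OneCoset f) :
    Kn fun w : List α => (w.map f).prod := by
  obtain ⟨N, q, g, hq, hN, hi, hc, hf⟩ := h
  by_cases hg : g ∈ N
  · refine inN_known N (fun x hx y hy z _ => hc x hx y hy z) f fun x => ?_
    have := N.mul_mem hg (hf x)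
    rwa [mul_inv_cancel_left] at this
  · by_cases h2 : q = 2
    · subst h2
      refine Tw.twist_all N ⊥ hi (fun x hx y hy z _ => hc x hx y hy z) inferInstance ?_ f
        fun x => Or.inl fun hx => hg ?_
      · intro a ha b hb
        rw [Subgroup.mem_bot] at ha hb
        rw [ha, hb]
      · have h3 := N.mul_mem hx (N.inv_mem (hf x))
        rwa [mul_inv_rev, inv_inv, mul_inv_cancel_left] at h3
    · exact hodd N q g f hq h2 hN hi hg hc hf

end Vale.Agent.P329.H697
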