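import Vale.Agent.P329.H697.One
import Vale.Agent.P329.H433.Cos

/-!
# P329 / all letters in one coset of a normal subgroup of prime index: final form
-/

set_option linter.all false

namespace Vale.Agent.P329.H697

open Vale.Agent.P329

theorem oneCoset_known {α G : Type} [Finite α] [Group G] [Finite G] (f : α → G)
    (h : OneCoset f) : Kn fun w : List α => (w.map f).prod := by
  refine oneCoset_of ?_ f h
  intro α G _ _ _ N q g f hq h2 hN hi hg hc hf
  have hu : ∀ x, f x * g⁻¹ ∈ N := fun x => by
    have h1 := hN.conj_mem _ (hf x) g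
    rwa [mul_inv_cancel_left] at h1
  have h3 : g ^ q ∈ N := by
    rw [← hi]
    exact N.pow_index_mem g
  have h1 := H433.coset_all N hq h2 g h3 (fun a b c => hc a a.2 b b.2 c)
    (fun x : α => (⟨f x * g⁻¹, hu x⟩ : N))
  refine Eq.mp (congrArg Kn ?_) h1
  funext w
  congr 1
  refine List.map_congr_left fun x _ => ?_
  exact inv_mul_cancel_right _ _

end Vale.Agent.P329.H697
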