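import Vale.Agent.P329.H697.Defs6
import Vale.Agent.P329.H433.Cos

/-!
# P329 / all letters in one coset of odd order: last step
-/

set_option linter.all false

namespace Vale.Agent.P329.H697

open Vale.Agent.P329

theorem oddCoset_of
    (hP : ∀ {α : Type} [Finite α] {n : ℕ}, 0 < n → ∀ (g : ZMod n) (a b : α),
      KnZ fun w : List α => H766.Q2.PG n g a b w.reverse)
    {α G : Type} [Finite α] [Group G] [Finite G] (f : α → G) (h : OddCoset f) :
    Kn fun w : List α => (w.map f).prod := by
  obtain ⟨N, n, g, hN, hn, hg, hc, hf⟩ := h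
  have hn0 : 0 < n := hn.pos
  have hu : ∀ x, f x * g⁻¹ ∈ N := fun x => by
    have h1 := hN.conj_mem _ (hf x) g
    rwa [mul_inv_cancel_left] at h1
  have h1 := H433.coset_known N hn g hg (fun a b c => hc a a.2 b b.2 c)
    (fun x : α => (⟨f x * g⁻¹, hu x⟩ : N)) (fun a r => H766.Q2.nc_known hn0 a r)
    fun e a b => hP hn0 e a b
  refine Eq.mp (congrArg Kn ?_) h1
  funext w
  congr 1
  refine List.map_congr_left fun x _ => ?_
  exact inv_mul_cancel_right _ _

end Vale.Agent.P329.H697
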