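import Vale.Agent.P329.H697.OneG
import Vale.Agent.P329.H766.QN

/-!
# P329 / all letters in one coset of odd order: final form
-/

set_option linter.all false

namespace Vale.Agent.P329.H697

open Vale.Agent.P329

theorem oddCoset_known {α G : Type} [Finite α] [Group G] [Finite G] (f : α → G)
    (h : OddCoset f) : Kn fun w : List α => (w.map f).prod :=
  oddCoset_of (fun hn g a b => H766.QN.pg hn g a b) f h

end Vale.Agent.P329.H697
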