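import Vale.Agent.P329.H265.Known
import Vale.Agent.P329.R3.H211.Main

/-! Pair counts with one sign, modulo every positive integer, if one of the letters is a
reflection. -/

namespace Vale.Agent.P329.H697.Tw

open Vale.Agent.P329 Vale.Agent.P329.S4 Vale.Agent.P329.H265

variable {α : Type} {r : α → Bool}

/-- sum of letter values -/
def S (φ : α → ℤ) (u : List α) : ℤ := (u.map φ).sum

theorem S_snoc (φ : α → ℤ) (u : List α) (x : α) : S φ (u ++ [x]) = S φ u + φ x := by
  rw [S, List.map_append, List.sum_append, List.map_singleton, List.sum_singleton]; rfl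

theorem fold_S {n : ℕ} (φ : α → ℤ) (u : List α) :
    u.foldl (adda fun x => ((φ x : ℤ) : ZMod n)) 0 = ((S φ u : ℤ) : ZMod n) := by
  induction u using List.reverseRecOn with
  | nil => rw [S]; simp
  | append_singleton u x ih =>
    rw [List.foldl_append, ih, List.foldl_cons, List.foldl_nil, S_snoc, adda, Int.cast_add]

theorem rho_snoc (u : List α) (x : α) :
    rho r (u ++ [x]) = if r x = true then -rho r u else rho r u := by
  unfold rho
  rw [par_snoc]
  cases par r u <;> cases r x <;> simp

theorem rho_par {φ : α → ℤ} (hφ : ∀ x, if r x = true then φ x = 1 ∨ φ x = -1 else φ x = 0)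
    (u : List α) : rho r u = if S φ u % 2 = 0 then 1 else -1 := by
  induction u using List.reverseRecOn with
  | nil => rfl
  | append_singleton u x ih =>
    rw [rho_snoc, ih, S_snoc]
    have h := hφ x
    by_cases hr : r x = true
    · rw [if_pos hr] at h ⊢
      split_ifs <;> omega
    · rw [if_neg hr] at h ⊢
      rw [h, add_zero]

/-- sign times value -/
def Ph (n : ℕ) (e : ZMod n) : ℤ := (if (e.val : ℤ) % 2 = 0 then 1 else -1) * (e.val : ℤ)

theorem core_rho [Finite α] {φ : α → ℤ}
    (hφ : ∀ x, if r x = true then φ x = 1 ∨ φ x = -1 else φ x = 0) (b : α) :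
    KnZ (at_ b fun u => rho r u * S φ u) := by
  intro k hk
  have hne : NeZero (2 * k) := ⟨by omega⟩
  have hφ' : ∀ x, φ x = 0 ∨ φ x = 1 ∨ φ x = -1 := by
    intro x
    have h := hφ x
    by_cases hr : r x = true
    · rw [if_pos hr] at h; exact Or.inr h
    · rw [if_neg hr] at h; exact Or.inl h
  have h1 := H211.core α (2 * k) φ hφ' b (Ph (2 * k)) 0 k hk
  refine Eq.mp (congrArg Kn ?_) h1
  funext w
  rw [W_eq_at]
  have h2 : ∀ F : List α → ℤ, ((at_ b F w : ℤ) : ZMod k) =
      at_ b (fun u => ((F u : ℤ) : ZMod k)) w := fun F =>
    at_hom (Int.castAddHom (ZMod k)) b F w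
  rw [h2, h2]
  refine at_congr (fun u => ?_) w
  rw [fold_S, rho_par hφ]
  have h3 : (((S φ u : ℤ) : ZMod (2 * k)).val : ℤ) = S φ u % ((2 * k : ℕ) : ℤ) :=
    ZMod.val_intCast _
  have h4 : ∃ c : ℤ, S φ u % ((2 * k : ℕ) : ℤ) = S φ u - 2 * (k * c) := by
    refine ⟨S φ u / ((2 * k : ℕ) : ℤ), ?_⟩
    have := Int.emod_def (S φ u) ((2 * k : ℕ) : ℤ)
    rw [this]; push_cast; ring
  obtain ⟨c, hc⟩ := h4
  rw [Ph, h3, hc]
  have h5 : (S φ u - 2 * (k * c)) % 2 = S φ u % 2 := by omega
  rw [h5]
  push_cast
  have h6 : (k : ZMod k) = 0 := ZMod.natCast_self k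
  rw [h6]
  ring

open Classical in
/-- one sign, before it a reflection -/
theorem F01_refl [Finite α] {a : α} (ha : r a = true) (b : α) :
    KnZ (at_ b fun u => rho r u * na a u) := by
  apply KnZ.div (c := 2) (by norm_num)
  have k1 : KnZ (at_ b fun u => rho r u * S (fun x => if r x = true then 1 else 0) u) :=
    core_rho (fun x => by by_cases hr : r x = true <;> simp [hr]) b
  have k2 : KnZ (at_ b fun u => rho r u *
      S (fun x => if r x = true then (if x = a then -1 else 1) else 0) u) :=
    core_rho (fun x => by
      by_cases hr : r x = true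
      · rw [if_pos hr, if_pos hr]
        by_cases hx : x = a
        · rw [if_pos hx]; exact Or.inr rfl
        · rw [if_neg hx]; exact Or.inl rfl
      · rw [if_neg hr, if_neg hr]) b
  refine (k1.sub k2).congr fun w => ?_
  have h2 : ∀ (c : ℤ) (F : List α → ℤ), c * at_ b F w = at_ b (fun v => c * F v) w :=
    fun c F => at_hom (AddMonoidHom.mulLeft c) b F w
  have key : ∀ u : List α, S (fun x => if r x = true then 1 else 0) u =
      S (fun x => if r x = true then (if x = a then -1 else 1) else 0) u + 2 * na a u := by
    intro u
    induction u using List.reverseRecOn with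
    | nil => rw [na, at_nil]; rfl
    | append_singleton u x ih =>
      rw [S_snoc, S_snoc, na_snoc, ih]
      by_cases hx : x = a
      · have hr : r x = true := by rw [hx]; exact ha
        rw [if_pos hr, if_pos hr, if_pos hx, if_pos hx]; ring
      · rw [if_neg hx, if_neg hx]; ring
  have h3 : at_ b (fun u => rho r u * S (fun x => if r x = true then 1 else 0) u) w =
      at_ b (fun u => rho r u *
        S (fun x => if r x = true then (if x = a then -1 else 1) else 0) u) w +
      at_ b (fun u => 2 * (rho r u * na a u)) w := by
    rw [← at_add]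
    refine at_congr (fun u => ?_) w
    rw [key]; ring
  rw [h3, add_sub_cancel_left]
  exact h2 2 _

open Classical in
/-- a reflection before a positive letter -/
theorem F10_pos [Finite α] {a b : α} (ha : r a = true) (hb : r b = false) :
    KnZ (at_ b (X r a)) := by
  have := Fintype.ofFinite α
  have key : ∀ φ : Option α, KnZ (atp r φ none b fun u => H265.sg φ * X r a u) := by
    intro φ
    have k1 : KnZ (atp r φ none b (Xb r φ a)) :=
      atp_Xb (fun x' hx hr => pair_pb hb hr (Ne.symm hx) φ) (fun x' hx => pair_pb hb ha hx φ)
    have k2 : KnZ fun w => (if φ = some a then (-1 : ℤ) else 0) * Nm r φ none b w := by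
      exact (num_p hb φ).mul_left _
    refine (k1.add k2).congr fun w => ?_
    have k3 : (if φ = some a then (-1 : ℤ) else 0) * Nm r φ none b w =
        atp r φ none b (fun _ => (if φ = some a then (-1 : ℤ) else 0) * 1) w := by
      rw [atp_mul]; rfl
    rw [k3, ← atp_add]
    refine atp_congr (fun u hu => ?_) w
    rw [X_eq ha, hu, if_neg (by simp : ¬ (none : Option α) = some a)]
    by_cases h : φ = some a
    · rw [if_pos h, if_pos h]; ring
    · rw [if_neg h, if_neg h]; ring
  refine ((key none).sub (key (some a))).congr fun w => ?_
  have h1 : atp r (some a) none b (fun u => H265.sg (some a) * X r a u) w =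
      -atp r (some a) none b (X r a) w := by
    rw [show H265.sg (some a) = -1 from rfl, atp_mul]; ring
  have h2 : atp r none none b (fun u => H265.sg (none : Option α) * X r a u) w =
      atp r none none b (X r a) w := by
    rw [show H265.sg (none : Option α) = 1 from rfl, atp_mul]; ring
  rw [h1, h2, sub_neg_eq_add]
  exact split_at (r := r) a b _ _ _ (fun u _ => rfl) (fun u _ => rfl) w

/-- product rule, different letters -/
theorem prod_ne {a b : α} (hab : b ≠ a) (w : List α) : X r b w * na a w =
    at_ a (X r b) w + at_ b (fun u => rho r u * na a u) w := by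
  classical
  induction w using List.reverseRecOn with
  | nil => rw [X, at_nil, at_nil, at_nil, zero_mul, add_zero]
  | append_singleton w x ih =>
    rw [X_snoc, na_snoc, at_snoc, at_snoc]
    by_cases hx : x = a
    · have hxb : ¬ x = b := fun h => hab (by rw [← h, hx])
      rw [if_neg hxb, if_pos hx, if_pos hx, if_neg hxb]
      linear_combination ih
    · rw [if_neg hx, if_neg hx]
      by_cases hxb : x = b
      · rw [if_pos hxb, if_pos hxb]
        linear_combination ih
      · rw [if_neg hxb, if_neg hxb]
        linear_combination ih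

/-- product rule, equal letters -/
theorem prod_eq (a : α) (w : List α) : X r a w * na a w =
    at_ a (X r a) w + at_ a (fun u => rho r u * na a u) w + X r a w := by
  classical
  induction w using List.reverseRecOn with
  | nil => rw [X, at_nil, at_nil, at_nil, zero_mul, add_zero, add_zero]
  | append_singleton w x ih =>
    rw [X_snoc, na_snoc, at_snoc, at_snoc]
    by_cases hx : x = a
    · rw [if_pos hx, if_pos hx, if_pos hx, if_pos hx]
      linear_combination ih
    · rw [if_neg hx, if_neg hx, if_neg hx, if_neg hx]
      linear_combination ih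

/-- one sign at the first letter -/
theorem F10_known [Finite α] {a b : α} (h : r a = true ∨ r b = true) :
    KnZ (at_ b (X r a)) := by
  by_cases hab : a = b
  · subst hab
    have ha : r a = true := h.elim id id
    refine ((((X_known (r := r) a).mul (na_known a)).sub (F01_refl ha a)).sub
      (X_known (r := r) a)).congr fun w => ?_
    rw [prod_eq]; ring
  · by_cases hb : r b = true
    · refine (((X_known (r := r) a).mul (na_known b)).sub (F01_refl hb a)).congr fun w => ?_
      rw [prod_ne hab]; ring
    · exact F10_pos (h.resolve_right hb) (Bool.eq_false_iff.2 hb)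

/-- one sign at the second letter -/
theorem F01_known [Finite α] {a b : α} (h : r a = true ∨ r b = true) :
    KnZ (at_ b fun u => rho r u * na a u) := by
  by_cases ha : r a = true
  · exact F01_refl ha b
  · have hb := h.resolve_left ha
    have hab : b ≠ a := fun h1 => ha (by rw [← h1]; exact hb)
    refine (((X_known (r := r) b).mul (na_known a)).sub
      (F10_pos (r := r) (a := b) (b := a) hb (Bool.eq_false_iff.2 ha))).congr fun w => ?_
    rw [prod_ne hab]; ring

/-- no signs -/
theorem F00_all [Finite α] (a b : α) : KnZ (at_ b (na a)) := by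
  by_cases hab : a = b
  · subst hab
    apply KnZ.div (c := 2) (by norm_num)
    refine (((na_known a).mul (na_known a)).sub (na_known a)).congr fun w => ?_
    classical
    induction w using List.reverseRecOn with
    | nil => rw [na, at_nil, at_nil]; rfl
    | append_singleton w x ih =>
      rw [na_snoc, at_snoc]
      by_cases hx : x = a
      · rw [if_pos hx, if_pos hx]
        push_cast at ih ⊢
        linear_combination ih
      · rw [if_neg hx, if_neg hx]
        push_cast at ih ⊢
        linear_combination ih
  · exact F00_known hab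

end Vale.Agent.P329.H697.Tw
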