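import Vale.Agent.P329.H697.Tw
import Vale.Agent.P329.H672.Cen.Fin
import Mathlib.GroupTheory.IndexNormal

/-! Letters which are reflections or have values in an abelian normal subgroup. -/

namespace Vale.Agent.P329.H697.Tw

open Vale.Agent.P329 Vale.Agent.P329.S4 Vale.Agent.P329.H672.Cen

variable {α : Type}

/-- class of a letter -/
def pr (r : α → Bool) (x : α) : ZMod 2 := if r x = true then 1 else 0

theorem sg_qs (r : α → Bool) (u : List α) : sg (qs (pr r) u) = H265.rho r u := by
  induction u using List.reverseRecOn with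
  | nil => rfl
  | append_singleton u x ih =>
    rw [qs_snoc, sg_add, ih, rho_snoc, pr]
    by_cases hr : r x = true
    · rw [if_pos hr, if_pos hr, show sg 1 = -1 from by decide]; ring
    · rw [if_neg hr, if_neg hr, show sg 0 = 1 from by decide]; ring

theorem two_ind : ∀ s q : ZMod 2, 2 * ind s q = 1 + sg s * sg q := by
  intro s q
  by_cases h : q = s
  · subst h
    rw [ind_self]
    revert q; decide
  · rw [ind_ne h]; revert s q; decide

theorem two_Cn (r : α → Bool) (s : ZMod 2) (a : α) (u : List α) :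
    2 * Cn (pr r) s a u = H265.na a u + sg s * H265.X r a u := by
  have h2 : ∀ (c : ℤ) (F : List α → ℤ), c * at_ a F u = at_ a (fun v => c * F v) u :=
    fun c F => at_hom (AddMonoidHom.mulLeft c) a F u
  rw [Cn, H265.na, H265.X, h2, h2, ← at_add]
  refine at_congr (fun v => ?_) u
  rw [two_ind, sg_qs]

/-- all pair counts with classes, if one of the letters is a reflection -/
theorem cls_known [Finite α] (r : α → Bool) {a b : α} (h : r a = true ∨ r b = true)
    (s t : ZMod 2) : KnZ (at_ b fun u => ind t (qs (pr r) u) * Cn (pr r) s a u) := by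
  apply KnZ.div (c := 4) (by norm_num)
  have k := (((F00_all a b).add ((F10_known h).mul_left (sg s))).add
    ((F01_known h).mul_left (sg t))).add ((H265.F11_known r a b).mul_left (sg s * sg t))
  refine k.congr fun w => ?_
  have h2 : ∀ (c : ℤ) (F : List α → ℤ), c * at_ b F w = at_ b (fun v => c * F v) w :=
    fun c F => at_hom (AddMonoidHom.mulLeft c) b F w
  have h3 : ((4 : ℕ) : ℤ) = 4 := rfl
  rw [h3, h2, h2, h2, h2, ← at_add, ← at_add, ← at_add]
  refine at_congr (fun u => ?_) w
  have e1 := two_ind t (qs (pr r) u)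
  rw [sg_qs] at e1
  have e2 := two_Cn r s a u
  refine Eq.symm ?_
  calc H265.na a u + sg s * H265.X r a u + sg t * (H265.rho r u * H265.na a u) +
        sg s * sg t * (H265.rho r u * H265.X r a u)
      = (1 + sg t * H265.rho r u) * (H265.na a u + sg s * H265.X r a u) := by ring
    _ = (2 * ind t (qs (pr r) u)) * (2 * Cn (pr r) s a u) := by rw [e1, e2]
    _ = 4 * (ind t (qs (pr r) u) * Cn (pr r) s a u) := by ring

variable {K : Type} [Group K] {e : ℕ} {hK : ∀ x y : K, x * y * x⁻¹ * y⁻¹ ∈ EE K e}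

theorem Sg_known2 [Finite α] [Finite K] (r : α → Bool) (c : ZMod 2 → α → K)
    (h : ∀ a b, (r a = true ∨ r b = true) ∨ ∀ s t, cc hK (c s a) (c t b) = 0) :
    Kn (Sg (pr r) c hK) := by
  classical
  have := Fintype.ofFinite α
  have h1 : Kn fun w => ∑ b, ∑ a, ∑ s : ZMod 2, ∑ t : ZMod 2,
      at_ b (fun u => ind t (qs (pr r) u) * Cn (pr r) s a u) w • cc hK (c s a) (c t b) := by
    refine kn_fsum fun b => kn_fsum fun a => kn_fsum fun s => kn_fsum fun t => ?_
    rcases h a b with h | h
    · exact knZ_smul (cls_known r h s t) _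
    · have h0 : Kn fun _ : List α => (0 : Additive (EE K e)) := Kn.const 0
      refine Eq.mp (congrArg Kn ?_) h0
      funext w
      rw [h s t, smul_zero]
  refine Eq.mp (congrArg Kn ?_) h1
  funext w
  rw [Sg, sm_eq_at]
  refine Finset.sum_congr rfl fun b _ => ?_
  have h2 : ∀ u : List α, cc hK (Qg (pr r) c u) (c (qs (pr r) u) b) =
      ∑ a, ∑ s : ZMod 2, ∑ t : ZMod 2,
        (ind t (qs (pr r) u) * Cn (pr r) s a u) • cc hK (c s a) (c t b) := by
    intro u
    rw [cc_Qg]
    refine Finset.sum_congr rfl fun a _ => ?_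
    refine Finset.sum_congr rfl fun s _ => ?_
    rw [Finset.sum_eq_single (qs (pr r) u)]
    · rw [ind_self, one_mul]
    · intro t _ ht
      rw [ind_ne (Ne.symm ht), zero_mul, zero_smul]
    · intro h; exact absurd (Finset.mem_univ _) h
  have h3 : ∀ (F : List α → ℤ) (z : Additive (EE K e)), at_ b F w • z =
      at_ b (fun u => F u • z) w := fun F z =>
    at_hom (smulAddHom ℤ (Additive (EE K e)) |>.flip z) b F w
  rw [at_congr h2, at_sum]
  refine Finset.sum_congr rfl fun a _ => ?_
  rw [at_sum]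
  refine Finset.sum_congr rfl fun s _ => ?_
  rw [at_sum]
  refine Finset.sum_congr rfl fun t _ => ?_
  exact h3 _ _

theorem Qg_known2 [Finite α] [Finite K] (r : α → Bool) (c : ZMod 2 → α → K)
    (hK : ∀ x y : K, x * y * x⁻¹ * y⁻¹ ∈ EE K e)
    (h : ∀ a b, (r a = true ∨ r b = true) ∨ ∀ s t, cc hK (c s a) (c t b) = 0) :
    Kn (Qg (pr r) c) := by
  have h1 : Kn (Qb (pr r) c hK) :=
    Pr_known (fun x s q => known_elem (p := 2) (hp := ⟨Nat.prime_two⟩) (pr r) x s q) _ 0
  have h2 : Kn (Sg (pr r) c hK) := Sg_known2 r c h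
  refine Eq.mp (congrArg Kn ?_) (h1.comp₂ h2 fun x y => x.val * (vE (e • y))⁻¹)
  funext w
  rw [Qb_eq, mul_inv_cancel_right]

/-- Letters outside a subgroup of index two of class two, or in an abelian normal subgroup. -/
theorem twist_known {α G : Type} [Finite α] [Group G] [Finite G] (N A : Subgroup G) (e : ℕ)
    (hN : N.index = 2) (hc : ∀ x ∈ N, ∀ y ∈ N, (x * y * x⁻¹ * y⁻¹) ^ (2 * e + 1) = 1 ∧
      ∀ z ∈ N, z * (x * y * x⁻¹ * y⁻¹) = x * y * x⁻¹ * y⁻¹ * z)
    (hA : A.Normal) (hab : ∀ a ∈ A, ∀ b ∈ A, a * b = b * a) (f : α → G)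
    (hf : ∀ x, f x ∉ N ∨ f x ∈ A) : Kn fun w : List α => (w.map f).prod := by
  classical
  obtain ⟨t, ht⟩ : ∃ t : G, t ∉ N := by
    by_contra hcon
    push Not at hcon
    have : N = ⊤ := (Subgroup.eq_top_iff' N).2 hcon
    rw [this, Subgroup.index_top] at hN
    exact absurd hN (by norm_num)
  have hK : ∀ x y : N, x * y * x⁻¹ * y⁻¹ ∈ EE N e := fun x y =>
    ⟨fun g => Subtype.ext ((hc x x.2 y y.2).2 g g.2), Subtype.ext (hc x x.2 y y.2).1⟩
  let r : α → Bool := fun x => decide (f x ∉ N)
  let s : ZMod 2 → G := fun p => if p = 0 then 1 else t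
  have hs : ∀ p, s p ∈ N ↔ p = 0 := by
    intro p
    by_cases hp : p = 0
    · simp only [s, if_pos hp]; exact ⟨fun _ => hp, fun _ => N.one_mem⟩
    · simp only [s, if_neg hp]; exact ⟨fun h => absurd h ht, fun h => absurd h hp⟩
  have hr1 : ∀ x, r x = true ↔ f x ∉ N := fun x => by
    show decide (f x ∉ N) = true ↔ f x ∉ N
    exact decide_eq_true_iff
  have hph : ∀ x, pr r x = 0 ↔ f x ∈ N := by
    intro x
    by_cases hx : f x ∈ N
    · have hr : ¬ r x = true := fun h => (hr1 x).1 h hx
      rw [pr, if_neg hr]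
      exact ⟨fun _ => hx, fun _ => rfl⟩
    · have hr : r x = true := (hr1 x).2 hx
      rw [pr, if_pos hr]
      exact ⟨fun h => absurd h (by decide), fun h => absurd h hx⟩
  have h2 : ∀ p q : ZMod 2, p + q = 0 ↔ (p = 0 ↔ q = 0) := by decide
  have hmem : ∀ (p : ZMod 2) (x : α), s p * f x * (s (p + pr r x))⁻¹ ∈ N := by
    intro p x
    rw [Subgroup.mul_mem_iff_of_index_two hN, Subgroup.mul_mem_iff_of_index_two hN,
      Subgroup.inv_mem_iff, hs, hs, h2, hph]
  let c : ZMod 2 → α → N := fun p x => ⟨s p * f x * (s (p + pr r x))⁻¹, hmem p x⟩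
  have hcA : ∀ x, ¬ r x = true → ∀ p, ((c p x : N) : G) ∈ A := by
    intro x hx p
    have h3 : f x ∈ N := by
      by_contra h4
      exact hx ((hr1 x).2 h4)
    have h5 : pr r x = 0 := (hph x).2 h3
    show s p * f x * (s (p + pr r x))⁻¹ ∈ A
    rw [h5, add_zero]
    exact hA.conj_mem _ ((hf x).resolve_left fun h => h h3) _
  have hQ : Kn (Qg (pr r) c) := by
    refine Qg_known2 r c hK fun a b => ?_
    by_cases ha : r a = true
    · exact Or.inl (Or.inl ha)
    · by_cases hb : r b = true
      · exact Or.inl (Or.inr hb)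
      · right
        intro p q
        apply vE_inj
        rw [vE_cc, vE_zero]
        apply Subtype.ext
        show ((c p a : N) : G) * ((c q b : N) : G) * ((c p a : N) : G)⁻¹ *
          ((c q b : N) : G)⁻¹ = 1
        rw [hab _ (hcA a ha p) _ (hcA b hb q), mul_inv_cancel_right, mul_inv_cancel]
  have key : ∀ w : List α, (w.map f).prod = ((Qg (pr r) c w : N) : G) * s (qs (pr r) w) := by
    intro w
    induction w using List.reverseRecOn with
    | nil =>
      rw [Qg_nil]
      show (1 : G) = ((1 : N) : G) * s 0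
      simp [s]
    | append_singleton w x ih =>
      rw [List.map_append, List.prod_append, List.map_singleton, List.prod_singleton, ih,
        Qg_snoc, qs_snoc, Subgroup.coe_mul]
      show _ = ((Qg (pr r) c w : N) : G) * (s (qs (pr r) w) * f x *
        (s (qs (pr r) w + pr r x))⁻¹) * s (qs (pr r) w + pr r x)
      group
  have hq : Kn (qs (pr r)) := by
    have h := comm_known (H := Multiplicative (ZMod 2))
      (fun x : α => Multiplicative.ofAdd (pr r x))
    refine Eq.mp (congrArg Kn ?_) (h.comp fun t => Multiplicative.toAdd t)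
    funext w
    induction w using List.reverseRecOn with
    | nil => rfl
    | append_singleton w x ih =>
      rw [List.map_append, List.prod_append, List.map_singleton, List.prod_singleton,
        toAdd_mul, ih, qs_snoc]
      rfl
  refine Eq.mp (congrArg Kn ?_) (hQ.comp₂ hq fun x y => ((x : N) : G) * s y)
  funext w
  exact (key w).symm

end Vale.Agent.P329.H697.Tw
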