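import Vale.Agent.P329.H697.Tw2

/-! Letters which are outside a subgroup of index two of class two, or have values in an abelian
normal subgroup: commutators of any order. -/

namespace Vale.Agent.P329.H697.Tw

open Vale.Agent.P329 Vale.Agent.P329.S4 Vale.Agent.P329.H672.Cen

/-- powers in a group of class two -/
theorem comm_pow' {G : Type} [Group G] {x y : G}
    (h4 : x * (x * y * x⁻¹ * y⁻¹) = x * y * x⁻¹ * y⁻¹ * x) (j : ℕ) :
    x ^ j * y = (x * y * x⁻¹ * y⁻¹) ^ j * y * x ^ j := by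
  set c := x * y * x⁻¹ * y⁻¹ with hcdef
  have h1 : x * y = c * y * x := by rw [hcdef]; group
  induction j with
  | zero => simp
  | succ j ih =>
    have h4' : x * c ^ j = c ^ j * x := (show Commute x c from h4).pow_right j
    calc x ^ (j + 1) * y = x * (x ^ j * y) := by rw [pow_succ']; group
      _ = x * c ^ j * y * x ^ j := by rw [ih]; group
      _ = c ^ j * (x * y) * x ^ j := by rw [h4']; group
      _ = c ^ j * c * y * (x * x ^ j) := by rw [h1]; group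
      _ = c ^ (j + 1) * y * x ^ (j + 1) := by rw [← pow_succ, ← pow_succ']

theorem even_known' {α G : Type} [Finite α] [Group G] [Finite G] (N : Subgroup G)
    (hsq : ∀ g : G, g ^ 2 ∈ N) (k : ℕ)
    (hc : ∀ x ∈ N, ∀ y ∈ N, (x * y * x⁻¹ * y⁻¹) ^ (2 ^ k) = 1 ∧
      ∀ g ∈ N, g * (x * y * x⁻¹ * y⁻¹) = x * y * x⁻¹ * y⁻¹ * g)
    (f : α → G) : Kn fun w : List α => (w.map f).prod := by
  have hN : N.Normal := normal_of_sq N hsq
  let P : Sylow 2 G := default
  let K : Subgroup G := N ⊓ Subgroup.centralizer (N : Set G)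
  have hKn : K.Normal := inferInstance
  have hKm : ∀ x ∈ N, (∀ y ∈ N, x * y = y * x) → x ∈ K := fun x hx h =>
    ⟨hx, Subgroup.mem_centralizer_iff.2 fun y hy => (h y hy).symm⟩
  have hKc : ∀ x ∈ K, ∀ y ∈ N, x * y = y * x := fun x hx y hy =>
    (Subgroup.mem_centralizer_iff.1 hx.2 y hy).symm
  have hpow : ∀ x ∈ N, x ^ (2 ^ k) ∈ K := by
    intro x hx
    refine hKm _ (N.pow_mem hx _) fun y hy => ?_
    obtain ⟨h1, h2⟩ := hc x hx y hy
    rw [comm_pow' (h2 x hx), h1, one_mul]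
  refine core (e := 0) (f11_all α) N K P hsq P.isPGroup' inf_le_left
    (sylow_sur K (fun g => ⟨k + 1, ?_⟩) P) ?_ ?_ f
  · rw [pow_succ', pow_mul]
    exact hpow _ (hsq g)
  · intro z _ hz x hx
    exact (hKc x hx z hz).symm
  · intro x hx y hy
    have h1 : x * y * x⁻¹ * y⁻¹ = 1 := by
      rw [hKc x hx y hy.1]; group
    rw [h1]
    exact ⟨one_pow _, fun g => by rw [mul_one, one_mul]⟩

/-- elements of the centre of `N` killed by a power -/
def cenN {G : Type} [Group G] (N : Subgroup G) (n : ℕ) : Subgroup G where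
  carrier := {z | z ∈ N ∧ (∀ g ∈ N, g * z = z * g) ∧ z ^ n = 1}
  mul_mem' := by
    rintro a b ⟨ha0, ha, ha3⟩ ⟨hb0, hb, hb3⟩
    refine ⟨N.mul_mem ha0 hb0, fun g hg => by
      rw [← mul_assoc, ha g hg, mul_assoc, hb g hg, mul_assoc], ?_⟩
    rw [(show Commute a b from hb a ha0).mul_pow, ha3, hb3, one_mul]
  one_mem' := ⟨N.one_mem, fun g _ => by rw [mul_one, one_mul], one_pow _⟩
  inv_mem' := by
    rintro a ⟨ha0, ha, ha3⟩
    exact ⟨N.inv_mem ha0, fun g hg => (show Commute g a from ha g hg).inv_right,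
      by rw [inv_pow, ha3, inv_one]⟩

theorem cenN_normal {G : Type} [Group G] (N : Subgroup G) [hN : N.Normal] (n : ℕ) :
    (cenN N n).Normal := by
  constructor
  rintro z ⟨h0, h1, h2⟩ g
  refine ⟨hN.conj_mem z h0 g, fun y hy => ?_, ?_⟩
  · have h3 : g⁻¹ * y * g ∈ N := by
      have := hN.conj_mem y hy g⁻¹
      rwa [inv_inv] at this
    have h4 := h1 _ h3
    calc y * (g * z * g⁻¹) = g * (g⁻¹ * y * g * z) * g⁻¹ := by group
      _ = g * (z * (g⁻¹ * y * g)) * g⁻¹ := by rw [h4]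
      _ = g * z * g⁻¹ * y := by group
  · rw [conj_pow, h2, mul_one, mul_inv_cancel]

theorem cenN_le {G : Type} [Group G] (N : Subgroup G) (n : ℕ) : cenN N n ≤ N := fun _ h => h.1

theorem quot_hyp' {G : Type} [Group G] {N B : Subgroup G} [B.Normal] {m : ℕ}
    (hc : ∀ x ∈ N, ∀ y ∈ N, ∀ z ∈ N, z * (x * y * x⁻¹ * y⁻¹) = x * y * x⁻¹ * y⁻¹ * z)
    (hm : ∀ x ∈ N, ∀ y ∈ N, (x * y * x⁻¹ * y⁻¹) ^ m ∈ B) :
    ∀ x ∈ N.map (QuotientGroup.mk' B), ∀ y ∈ N.map (QuotientGroup.mk' B),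
      (x * y * x⁻¹ * y⁻¹) ^ m = 1 ∧
      ∀ z ∈ N.map (QuotientGroup.mk' B), z * (x * y * x⁻¹ * y⁻¹) = x * y * x⁻¹ * y⁻¹ * z := by
  rintro _ ⟨x, hx, rfl⟩ _ ⟨y, hy, rfl⟩
  refine ⟨?_, ?_⟩
  · rw [← map_inv, ← map_inv, ← map_mul, ← map_mul, ← map_mul, ← map_pow]
    exact (QuotientGroup.eq_one_iff _).mpr (hm x hx y hy)
  · rintro _ ⟨z, hz, rfl⟩
    rw [← map_inv, ← map_inv, ← map_mul, ← map_mul, ← map_mul]
    exact congrArg (QuotientGroup.mk' B) (hc x hx y hy z hz)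

/-- Letters outside a subgroup of index two of class two, or in an abelian normal subgroup. -/
theorem twist_all {α G : Type} [Finite α] [Group G] [Finite G] (N A : Subgroup G)
    (hN : N.index = 2)
    (hc : ∀ x ∈ N, ∀ y ∈ N, ∀ z ∈ N, z * (x * y * x⁻¹ * y⁻¹) = x * y * x⁻¹ * y⁻¹ * z)
    (hA : A.Normal) (hab : ∀ a ∈ A, ∀ b ∈ A, a * b = b * a) (f : α → G)
    (hf : ∀ x, f x ∉ N ∨ f x ∈ A) : Kn fun w : List α => (w.map f).prod := by
  classical
  have hNn : N.Normal := Subgroup.normal_of_index_eq_two hN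
  have hsq : ∀ g : G, g * g ∈ N := fun g => by
    rw [Subgroup.mul_mem_iff_of_index_two hN]
  obtain ⟨k, m, hm, hkm⟩ := Nat.exists_eq_two_pow_mul_odd (n := Nat.card G) Nat.card_pos.ne'
  obtain ⟨e, rfl⟩ := hm
  have hB1 : (cenN N (2 ^ k)).Normal := cenN_normal N _
  have hB2 : (cenN N (2 * e + 1)).Normal := cenN_normal N _
  have hcard : ∀ z : G, (z ^ (2 * e + 1)) ^ (2 ^ k) = 1 := by
    intro z
    rw [← pow_mul, mul_comm, ← hkm, pow_card_eq_one']
  have hcard' : ∀ z : G, (z ^ (2 ^ k)) ^ (2 * e + 1) = 1 := by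
    intro z
    rw [← pow_mul, ← hkm, pow_card_eq_one']
  have hcN : ∀ x ∈ N, ∀ y ∈ N, x * y * x⁻¹ * y⁻¹ ∈ N := fun x hx y hy =>
    N.mul_mem (N.mul_mem (N.mul_mem hx hy) (N.inv_mem hx)) (N.inv_mem hy)
  have hcp : ∀ z : G, (∀ g ∈ N, g * z = z * g) → ∀ (n : ℕ), ∀ g ∈ N, g * z ^ n = z ^ n * g :=
    fun z hz n g hg => (show Commute g z from hz g hg).pow_right n
  have a2 := quot_hyp' (B := cenN N (2 ^ k)) (m := 2 * e + 1) hc
    fun x hx y hy => ⟨N.pow_mem (hcN x hx y hy) _, hcp _ (hc x hx y hy) _, hcard _⟩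
  have b2 := quot_hyp' (B := cenN N (2 * e + 1)) (m := 2 ^ k) hc
    fun x hx y hy => ⟨N.pow_mem (hcN x hx y hy) _, hcp _ (hc x hx y hy) _, hcard' _⟩
  have hidx : (N.map (QuotientGroup.mk' (cenN N (2 ^ k)))).index = 2 := by
    rw [Subgroup.index_map_eq _ (QuotientGroup.mk'_surjective _)
      (by rw [QuotientGroup.ker_mk']; exact cenN_le N _), hN]
  have h1 : Kn fun w : List α =>
      (w.map fun x => QuotientGroup.mk' (cenN N (2 ^ k)) (f x)).prod := by
    refine twist_known (N.map (QuotientGroup.mk' (cenN N (2 ^ k))))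
      (A.map (QuotientGroup.mk' (cenN N (2 ^ k)))) e hidx a2
      (hA.map _ (QuotientGroup.mk'_surjective _)) ?_ _ fun x => ?_
    · rintro _ ⟨a, ha, rfl⟩ _ ⟨b, hb, rfl⟩
      rw [← map_mul, ← map_mul, hab a ha b hb]
    · rcases hf x with h | h
      · left
        rintro ⟨n, hn, hnx⟩
        apply h
        have h5 : n⁻¹ * f x ∈ cenN N (2 ^ k) := QuotientGroup.eq.mp hnx
        have h6 := N.mul_mem hn (cenN_le N _ h5)
        rwa [mul_inv_cancel_left] at h6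
      · exact Or.inr ⟨f x, h, rfl⟩
  have h2 : Kn fun w : List α =>
      (w.map fun x => QuotientGroup.mk' (cenN N (2 * e + 1)) (f x)).prod := by
    refine even_known' (N.map (QuotientGroup.mk' (cenN N (2 * e + 1)))) ?_ k b2 _
    intro g
    induction g using QuotientGroup.induction_on with | _ a =>
    exact ⟨a * a, hsq a, by rw [pow_two]; rfl⟩
  refine Eq.mp (congrArg Kn ?_) (h1.comp₂ h2 fun a b =>
    if h : ∃ g : G, QuotientGroup.mk' (cenN N (2 ^ k)) g = a ∧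
      QuotientGroup.mk' (cenN N (2 * e + 1)) g = b then h.choose else 1)
  funext w
  rw [mk_prod, mk_prod]
  have hex : ∃ g : G, QuotientGroup.mk' (cenN N (2 ^ k)) g =
      QuotientGroup.mk' (cenN N (2 ^ k)) (w.map f).prod ∧
      QuotientGroup.mk' (cenN N (2 * e + 1)) g =
      QuotientGroup.mk' (cenN N (2 * e + 1)) (w.map f).prod := ⟨_, rfl, rfl⟩
  rw [dif_pos hex]
  obtain ⟨c1, c2⟩ := hex.choose_spec
  have d1 : hex.choose⁻¹ * (w.map f).prod ∈ cenN N (2 ^ k) := QuotientGroup.eq.mp c1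
  have d2 : hex.choose⁻¹ * (w.map f).prod ∈ cenN N (2 * e + 1) := QuotientGroup.eq.mp c2
  have h5 : orderOf (hex.choose⁻¹ * (w.map f).prod) ∣ 2 ^ k := orderOf_dvd_of_pow_eq_one d1.2.2
  have h6 : orderOf (hex.choose⁻¹ * (w.map f).prod) ∣ 2 * e + 1 :=
    orderOf_dvd_of_pow_eq_one d2.2.2
  have h7 : Nat.Coprime (2 ^ k) (2 * e + 1) := Nat.Coprime.pow_left k (by simp)
  have h8 : orderOf (hex.choose⁻¹ * (w.map f).prod) ∣ 1 :=
    Dvd.dvd.trans (Nat.dvd_gcd h5 h6) (dvd_of_eq h7)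
  have h9 := orderOf_eq_one_iff.1 (Nat.dvd_one.1 h8)
  exact (inv_mul_eq_one.1 h9)

end Vale.Agent.P329.H697.Tw
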